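import Vale.Agent.P265.H336.Morse

/-! A critical orbit of index `p` contributes a nonzero class in degree `p`. -/

open Set Matrix Topology

namespace Vale.Agent.N265

open Vale.Agent.P265.AS

theorem one_le_hh_point {k : Type} [Field k] : 1 ≤ hh id (1 : k) (univ : Set Unit) ∅ 0 := by
  rw [Cardinal.one_le_iff_ne_zero]
  intro h0
  rw [hh_eq_zero_iff] at h0
  obtain ⟨b, -, ε, hε, h1, h2⟩ := h0
    (show (fun _ => (1 : k)) ∈ Zs id (1 : k) (univ : Set Unit) ∅ 0 from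
    ⟨fun x _ => by simp, 1, one_pos, fun x _ => by
      rw [d_succ_apply, d_zero_apply]; simp, fun x hx => absurd (hx.1 0) (Set.notMem_empty _)⟩)
  have e1 := h1 (fun _ => ()) ⟨fun _ => trivial, fun _ _ => by simpa using hε⟩
  rw [d_zero_apply, h2] at e1
  · exact one_ne_zero e1
  · exact ⟨fun i => i.elim0, fun i => i.elim0⟩

theorem one_le_hh_cube {k : Type} [Field k] (l : ℕ) {a b : ℝ} (hb : 0 < b) (hba : b ≤ a) :
    1 ≤ hh id (1 : k) (cube l a) (cubeOut l a b) l := by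
  have e1 := hh_boxS_ge (g := id) (X := (univ : Set Unit)) (X₀ := ∅) (empty_subset _) hb hba
    (1 : k) l 0
  rw [zero_add] at e1
  refine (one_le_hh_point.trans e1).trans ?_
  refine hh_le_of_section (ψ := fun u => ((), u)) (φ := Prod.snd) ?_ ?_ boxS₀_sub
    (fun u hu => hu.1) (fun _ _ => rfl) 1 l
  · refine ⟨fun u hu => hu.2, fun u hu => ⟨hu.2.1, ?_⟩,
      fun _ _ => rfl, fun ε hε => ⟨ε, hε, fun x _ y _ h => (le_max_right _ _).trans_lt h⟩⟩
    rcases hu.2.2 with h | h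
    · exact absurd h (notMem_empty _)
    · exact h
  · refine ⟨fun u hu => ⟨trivial, hu⟩, fun u hu => ⟨trivial, hu.1, Or.inr hu.2⟩,
      fun _ _ => rfl, fun ε hε => ⟨ε, hε, fun x _ y _ h => ?_⟩⟩
    rw [Prod.dist_eq, max_lt_iff]
    exact ⟨by simpa using hε, h⟩

/-- A cocycle of the cube vanishing outside a small cube, not trivial relative to a thin shell. -/
theorem exists_cube_class {k : Type} [Field k] (l : ℕ) {a b m : ℝ} (hb : 0 < b) (hm : 1 ≤ m)
    (hba : m * b ≤ a) : ∃ c ∈ Zs id (1 : k) (cube l a) (cubeOut l a b) l,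
      c ∉ Bs id (1 : k) (cube l a) (cubeOut l a (m * b)) l := by
  have hmb : 0 < m * b := by positivity
  have ha : 0 < a := hmb.trans_le hba
  have h1 := one_le_hh_cube (k := k) l hmb hba
  rw [Cardinal.one_le_iff_ne_zero, Ne, hh_eq_zero_iff, SetLike.not_le_iff_exists] at h1
  obtain ⟨z, hz, hzB⟩ := h1
  have hH : IsHtpy id id (cube l a) (cubeOut l a (m * b)) (cube l a) (cubeOut l a (m * b))
      (fun s u i => cl a ((1 + s * (m - 1)) * u i)) := by
    refine ⟨fun s _ u _ i => abs_cl_le ha.le _, fun s hs u hu => ⟨fun i => abs_cl_le ha.le _, ?_⟩,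
      fun _ _ _ _ => rfl, uc_of_compact (isCompact_cube l a) ?_⟩
    · obtain ⟨i, hi⟩ := hu.2
      exact ⟨i, hi.trans (abs_le_abs_cl (hu.1 i) (by nlinarith [hs.1]))⟩
    · refine Continuous.continuousOn (continuous_pi fun i => ?_)
      exact (continuous_cl a).comp (by fun_prop)
  have hm1 := hH.isMapP (s := 1) ⟨zero_le_one, le_rfl⟩
  have hm2 : IsMapP id id (cube l a) (cubeOut l a b) (cube l a) (cubeOut l a (m * b))
      (fun u i => cl a ((1 + 1 * (m - 1)) * u i)) := by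
    refine ⟨hm1.mapsX, fun u hu => ⟨fun i => abs_cl_le ha.le _, ?_⟩, hm1.eqv, hm1.uc⟩
    obtain ⟨i, hi⟩ := hu.2
    refine ⟨i, le_abs_cl ha.le hba ?_⟩
    rw [abs_mul, show 1 + 1 * (m - 1) = m by ring, abs_of_nonneg (zero_le_one.trans hm)]
    exact mul_le_mul_of_nonneg_left hi (zero_le_one.trans hm)
  refine ⟨_, pb_mem_Zs hm2 (fun u hu => hu.1) hz, fun hc => hzB ?_⟩
  have e2 := homotopy hH (fun u hu => hu.1) hz
  have e3 := (Bs id (1 : k) (cube l a) (cubeOut l a (m * b)) l).sub_mem hc e2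
  refine Bs_congr e3 one_pos fun x hx => ?_
  have a0 : (fun u i => cl a ((1 + 0 * (m - 1)) * u i)) ∘ x = x := by
    funext j i
    simp only [Function.comp_apply, zero_mul, add_zero, one_mul]
    exact cl_of_abs_le (hx.1 j i)
  simp only [Pi.sub_apply, pb_apply, a0]
  ring

variable {E : Type} [PseudoMetricSpace E] {g : E → E} {n : ℕ} {P : Set E} {F : E → ℝ} {p q : ℕ}
  {c r : ℝ} {θ : (Fin p → ℝ) × (Fin q → ℝ) → E} {κ : E → (Fin p → ℝ) × (Fin q → ℝ)}
  {σ : E → ℕ} {L : Set E}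

/-- Passing a critical level of index `p` creates cohomology in degree `p`. -/
theorem hh_critical_ge (hgP : Inv g P) (hg : ContinuousOn g P) (hF : ContinuousOn F P)
    (h : LocalBox g n P F p q c r θ κ σ L) {k : Type} [Field k] {χ : k} (hχ : χ ^ n = 1)
    {ε : ℝ} (hε : 0 < ε) (hεr : 2 * ε < r ^ 2) :
    1 ≤ hh g χ (Sub' P F (c + ε)) (Sub' P F (c - ε)) p := by
  have hr := h.r_pos
  have hLc := h.isCompact hg fun x hx => (hgP x).2 hx
  set b : ℝ := √(ε / (p + 1)) with hb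
  set m : ℝ := √(p + 1) with hm
  have hl : (0 : ℝ) < p + 1 := by positivity
  have hb0 : 0 < b := Real.sqrt_pos.2 (by positivity)
  have hm1 : 1 ≤ m := by rw [hm, Real.one_le_sqrt]; linarith [Nat.cast_nonneg (α := ℝ) p]
  have hmb : m * b = √ε := by
    rw [hm, hb, ← Real.sqrt_mul hl.le]
    congr 1
    field_simp
  have hb2 : b ^ 2 = ε / (p + 1) := Real.sq_sqrt (by positivity)
  have hεa' : √ε < r := by rw [Real.sqrt_lt' hr]; linarith
  have hbr : b < r := by nlinarith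
  have hsum : ∀ u : Fin p → ℝ, (∀ i, |u i| ≤ b) → ∑ i, u i ^ 2 < ε := by
    intro u hu
    have h1 : ∑ i, u i ^ 2 ≤ ∑ i : Fin p, b ^ 2 := Finset.sum_le_sum fun i _ => by
      rw [← sq_abs]
      exact pow_le_pow_left₀ (abs_nonneg _) (hu i) 2
    rw [Finset.sum_const, Finset.card_univ, Fintype.card_fin, nsmul_eq_mul, hb2] at h1
    have h2 : (p : ℝ) * (ε / (p + 1)) < ε := by
      rw [mul_div_assoc', div_lt_iff₀ hl]; nlinarith
    linarith
  obtain ⟨c₀, ⟨-, ε₀, hε₀, hc1, hc2⟩, hc₀⟩ := exists_cube_class (k := k) p (a := r) hb0 hm1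
    (by rw [hmb]; exact hεa'.le)
  let pr : E → Fin p → ℝ := fun x => (κ x).1
  have hprD : ∀ x ∈ L, pr x ∈ cube p r := fun x hx i =>
    (norm_le_pi_norm (κ x).1 i).trans ((norm_fst_le (κ x)).trans (h.κ_le x hx))
  obtain ⟨δ₁, hδ₁, hpr⟩ := uc_of_compact' (f := pr) hLc
    (continuous_fst.comp_continuousOn h.cont_κ) ε₀ hε₀
  obtain ⟨δ₂, hδ₂, hσ⟩ : ∃ δ > 0, ∀ x ∈ L, ∀ y ∈ L, dist x y < δ → σ x = σ y := by
    obtain ⟨δ, hδ, h1⟩ := uc_of_compact' hLc h.cont_σ 1 one_pos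
    refine ⟨δ, hδ, fun x hx y hy hxy => ?_⟩
    have := h1 x hx y hy hxy
    rw [Nat.dist_eq] at this
    have h2 : |((σ x : ℤ) : ℝ) - ((σ y : ℤ) : ℝ)| < 1 := by exact_mod_cast this
    rw [← Int.cast_sub, ← Int.cast_abs] at h2
    have h3 : |(σ x : ℤ) - (σ y : ℤ)| < 1 := by exact_mod_cast h2
    rw [Int.abs_lt_one_iff, sub_eq_zero] at h3
    exact_mod_cast h3
  have hcl : IsClosed {w : (Fin p → ℝ) × (Fin q → ℝ) | ∀ i, |w.1 i| ≤ b} := by
    simp only [ofPred_forall]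
    exact isClosed_iInter fun i => isClosed_le (by fun_prop) continuous_const
  have hCc : IsCompact {x ∈ {x ∈ L | κ x ∈ {w : (Fin p → ℝ) × (Fin q → ℝ) | ∀ i, |w.1 i| ≤ b}} |
      F x ∈ Iic (c + ε)} := by
    refine isCompact_inter_pre (isCompact_inter_pre hLc h.cont_κ hcl) (hF.mono ?_) isClosed_Iic
    exact fun x hx => h.L_sub hx.1
  obtain ⟨δ₃, hδ₃, hδ'⟩ := unif_nhds (P := P) (W := L) hCc (by
    rintro x ⟨⟨hx, hxi⟩, hxF⟩
    refine h.nhds x hx ?_
    have hv := h.value x hx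
    have h1 := hsum _ hxi
    have h2 : F x ≤ c + ε := hxF
    rw [Prod.norm_def, max_lt_iff]
    constructor
    · rw [pi_norm_lt_iff hr]
      intro i
      exact lt_of_le_of_lt (hxi i) hbr
    · rw [pi_norm_lt_iff hr]
      intro i
      rw [Real.norm_eq_abs]
      have h3 : (κ x).2 i ^ 2 ≤ ∑ i, (κ x).2 i ^ 2 :=
        Finset.single_le_sum (f := fun i => (κ x).2 i ^ 2) (fun i _ => sq_nonneg _)
          (Finset.mem_univ i)
      exact abs_lt_of_sq_lt_sq (by linarith) hr.le)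
  let e₀ : (Fin (p + 1) → E) → k := fun x => χ ^ σ (x 0) * c₀ (pr ∘ x)
  have he₀ : Eqv g χ L e₀ := by
    intro x hx
    have e3 : pr ∘ g ∘ x = pr ∘ x := funext fun j => congrArg Prod.fst (h.κ_g _ (hx j))
    have e4 : χ ^ σ (g (x 0)) = χ * χ ^ σ (x 0) := by
      rw [h.σ_g _ (hx _)]
      split_ifs with h1
      · rw [pow_succ']
      · have : σ (x 0) + 1 = n := by have := h.σ_lt _ (hx 0); omega
        rw [pow_zero, ← pow_succ', this, hχ]
    change χ ^ σ (g (x 0)) * c₀ (pr ∘ g ∘ x) = χ * (χ ^ σ (x 0) * c₀ (pr ∘ x))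
    rw [e3, e4, mul_assoc]
  -- tuples of `L` all of whose points are far from the core
  have hout : ∀ y : Fin (p + 1) → E, (∀ i j, dist (y i) (y j) < δ₁) →
      (∀ j, y j ∈ L → ¬ ∀ i, |(κ (y j)).1 i| ≤ b) → rs k L (p + 1) e₀ y = 0 := by
    intro y hy hyb
    by_cases hyL : ∀ i, y i ∈ L
    · rw [rs_of_mem hyL]
      change χ ^ σ (y 0) * c₀ (pr ∘ y) = 0
      rw [hc2 (pr ∘ y) ⟨fun j => ⟨hprD _ (hyL j), ?_⟩,
        fun i j => hpr _ (hyL i) _ (hyL j) (hy i j)⟩, mul_zero]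
      have h1 := hyb j (hyL j)
      push Not at h1
      obtain ⟨i, hi⟩ := h1
      exact ⟨i, hi.le⟩
    · exact rs_of_notMem hyL
  have hZ : rs k L (p + 1) e₀ ∈ Zs g χ (Sub' P F (c + ε)) (Sub' P F (c - ε)) p := by
    refine ⟨rs_eqv h.inv he₀, min δ₁ (min δ₂ δ₃), lt_min hδ₁ (lt_min hδ₂ hδ₃), fun x hx => ?_,
      fun x hx => ?_⟩
    · have d1 : ∀ i j, dist (x i) (x j) < δ₁ := fun i j => (hx.2 i j).trans_le (min_le_left _ _)
      have d2 : ∀ i j, dist (x i) (x j) < δ₂ := fun i j =>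
        (hx.2 i j).trans_le ((min_le_right _ _).trans (min_le_left _ _))
      have d3 : ∀ i j, dist (x i) (x j) < δ₃ := fun i j =>
        (hx.2 i j).trans_le ((min_le_right _ _).trans (min_le_right _ _))
      by_cases hxL : ∀ i, x i ∈ L
      · rw [d_rs hxL]
        have e4 : d e₀ x = d (χ ^ σ (x 0) • pb pr c₀) x := by
          refine d_congr fun y hy => ?_
          obtain ⟨j, hj⟩ := hy 0
          change χ ^ σ (y 0) * c₀ (pr ∘ y) = χ ^ σ (x 0) * c₀ (pr ∘ y)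
          rw [hj, hσ _ (hxL j) _ (hxL 0) (d2 j 0)]
        rw [e4, d_smul, Pi.smul_apply, d_pb, pb_apply,
          hc1 (pr ∘ x) ⟨fun j => hprD _ (hxL j), fun i j => hpr _ (hxL i) _ (hxL j) (d1 i j)⟩,
          smul_zero]
      · push Not at hxL
        obtain ⟨j₀, hj₀⟩ := hxL
        refine d_eq_zero fun y hy => hout y (fun i j => ?_) fun j hj hjb => hj₀ ?_
        · obtain ⟨i', hi⟩ := hy i
          obtain ⟨j', hj⟩ := hy j
          rw [hi, hj]
          exact d1 i' j'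
        · obtain ⟨j', hj'⟩ := hy j
          rw [hj'] at hj hjb
          exact hδ' _ ⟨⟨hj, hjb⟩, (hx.1 j').2⟩ _ (hx.1 j₀).1 (d3 j' j₀)
    · refine hout x (fun i j => (hx.2 i j).trans_le (min_le_left _ _)) fun j hj hjb => ?_
      have h1 := hsum _ hjb
      have h2 := h.value _ hj
      have h3 : F (x j) ≤ c - ε := (hx.1 j).2
      have h4 : 0 ≤ ∑ i, (κ (x j)).2 i ^ 2 := Finset.sum_nonneg fun i _ => sq_nonneg _
      linarith
  rw [Cardinal.one_le_iff_ne_zero]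
  intro h0
  obtain ⟨b', -, ε', hε', h1', h2'⟩ := hh_eq_zero_iff.1 h0 hZ
  apply hc₀
  let ι : (Fin p → ℝ) → E := fun u => θ (u, 0)
  have hnu : ∀ u ∈ cube p r, ‖(u, (0 : Fin q → ℝ))‖ ≤ r := by
    intro u hu
    rw [Prod.norm_def, norm_zero, max_le_iff]
    exact ⟨(pi_norm_le_iff_of_nonneg hr.le).2 hu, hr.le⟩
  have hval : ∀ u ∈ cube p r, F (ι u) = c - ∑ i, u i ^ 2 := by
    intro u hu
    rw [h.value _ (h.θ_mem _ (hnu u hu)), h.κ_θ _ (hnu u hu)]
    simp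
  obtain ⟨δ, hδ, hι⟩ := uc_of_compact' (f := ι) (isCompact_cube p r)
    (h.cont_θ.comp (by fun_prop) hnu) ε' hε'
  refine ⟨pb ι b', fun x _ => by simp, δ, hδ, fun x hx => ?_, fun x hx => ?_⟩
  · rw [d_pb, pb_apply, ← h1' (ι ∘ x) ⟨fun j => ⟨h.L_sub (h.θ_mem _ (hnu _ (hx.1 j))), ?_⟩,
      fun i j => hι _ (hx.1 i) _ (hx.1 j) (hx.2 i j)⟩,
      rs_of_mem (x := ι ∘ x) fun j => h.θ_mem _ (hnu _ (hx.1 j))]
    · have e1 : pr ∘ ι ∘ x = x := funext fun j => congrArg Prod.fst (h.κ_θ _ (hnu _ (hx.1 j)))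
      change c₀ x = χ ^ σ (θ (x 0, 0)) * c₀ (pr ∘ ι ∘ x)
      rw [e1, h.σ_θ _ (hnu _ (hx.1 0)), pow_zero, one_mul]
    · rw [Function.comp_apply, hval _ (hx.1 j)]
      have h4 : 0 ≤ ∑ i, x j i ^ 2 := Finset.sum_nonneg fun i _ => sq_nonneg _
      linarith
  · refine h2' (ι ∘ x) ⟨fun j => ⟨h.L_sub (h.θ_mem _ (hnu _ (hx.1 j).1)), ?_⟩,
      fun i j => hι _ (hx.1 i).1 _ (hx.1 j).1 (hx.2 i j)⟩
    rw [Function.comp_apply, hval _ (hx.1 j).1]
    obtain ⟨i, hi⟩ := (hx.1 j).2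
    rw [hmb] at hi
    have h5 : ε ≤ ∑ i, x j i ^ 2 :=
      calc ε = √ε ^ 2 := (Real.sq_sqrt hε.le).symm
        _ ≤ |x j i| ^ 2 := pow_le_pow_left₀ (Real.sqrt_nonneg _) hi 2
        _ = x j i ^ 2 := sq_abs _
        _ ≤ ∑ i, x j i ^ 2 := Finset.single_le_sum (f := fun i => x j i ^ 2)
          (fun i _ => sq_nonneg _) (Finset.mem_univ i)
    linarith

end Vale.Agent.N265
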