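import Vale.Agent.N265.Les
import Vale.Agent.N265.CritGe

/-! The abstract strong Morse inequalities. -/

open Set Matrix Topology

namespace Vale.Agent.N265

open Vale.Agent.P265.AS

/-- The numbers of critical orbits and the ranks satisfy the Morse relation. -/
theorem absRel {E : Type} [MetricSpace E] (g : E → E) (n : ℕ) (P : Set E) (F : E → ℝ) (m : ℕ)
    (c r : Fin m → ℝ) (p q : Fin m → ℕ) (θ : ∀ i, (Fin (p i) → ℝ) × (Fin (q i) → ℝ) → E)
    (κ : ∀ i, E → (Fin (p i) → ℝ) × (Fin (q i) → ℝ)) (σ : Fin m → E → ℕ) (L : Fin m → Set E)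
    (lo hi : ℝ) (hP : IsCompact P) (hgP : Inv g P) (hg : ContinuousOn g P)
    (hgn : ∀ x ∈ P, g^[n] x = x) (hF : ContinuousOn F P) (hFg : ∀ x ∈ P, F (g x) = F x)
    (hinj : Function.Injective c)
    (hbox : ∀ i, LocalBox g n P F (p i) (q i) (c i) (r i) (θ i) (κ i) (σ i) (L i))
    (hlo : ∀ i, lo < c i) (hhi : ∀ x ∈ P, F x ≤ hi)
    (hdesc : ∀ x ∈ P, lo ≤ F x → (∀ i, ¬ (x ∈ L i ∧ κ i x = 0)) →
      ∃ D, Descent g P F D ∧ ∃ U ∈ 𝓝[P] x, ∀ y ∈ U, F (D 1 y) < F y)
    {k : Type} [Field k] (χ : k) (hχ : χ ^ n = 1) :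
    Rel g χ P {x ∈ P | F x ≤ lo} fun j => (Finset.univ.filter fun i => p i = j).card := by
  have hregular : ∀ a b : ℝ, lo ≤ a → (∀ i, c i ∉ Icc a b) →
      Rel g χ (Sub' P F b) (Sub' P F a) 0 := by
    intro a b ha hab
    refine Rel.of_eq fun j => (hh_regular hP hgP hF hFg
      (fun x hx h1 h2 => hdesc x hx (ha.trans h1) fun i hi => ?_) χ j).trans (by simp)
    have := (hbox i).value_zero hi
    exact hab i ⟨this ▸ h1, this ▸ h2⟩
  have key : ∀ N : ℕ, ∀ t : ℝ, lo ≤ t → (∀ i, c i ≠ t) →
      (Finset.univ.filter fun i => c i < t).card = N →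
      Rel g χ (Sub' P F t) (Sub' P F lo)
        (∑ i ∈ Finset.univ.filter fun i => c i < t, fun j => if j = p i then 1 else 0) := by
    intro N
    induction N using Nat.strong_induction_on with
    | _ N ih =>
    intro t hlt hct hN
    rcases (Finset.univ.filter fun i => c i < t).eq_empty_or_nonempty with he | hne
    · rw [he, Finset.sum_empty]
      refine hregular lo t le_rfl fun i hi => ?_
      have h1 : i ∈ (Finset.univ.filter fun i => c i < t) :=
        Finset.mem_filter.2 ⟨Finset.mem_univ _, lt_of_le_of_ne hi.2 (hct i)⟩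
      rw [he] at h1
      exact absurd h1 (Finset.notMem_empty _)
    · obtain ⟨i₀, hi₀, hmax⟩ := Finset.exists_max_image _ c hne
      have hi₀t : c i₀ < t := (Finset.mem_filter.1 hi₀).2
      have hmax' : ∀ i, c i < t → c i ≤ c i₀ := fun i hi =>
        hmax i (Finset.mem_filter.2 ⟨Finset.mem_univ _, hi⟩)
      have hr0 := (hbox i₀).r_pos
      obtain ⟨ε₀, hε₀, hε₀lo, hε₀t, hε₀r, hε₀i⟩ : ∃ ε₀ > 0, ε₀ < c i₀ - lo ∧ ε₀ < t - c i₀ ∧
          ε₀ < r i₀ ^ 2 / 2 ∧ ∀ i, i ≠ i₀ → ε₀ < |c i - c i₀| := by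
        have h1 : ∀ᶠ ε in 𝓝[>] (0 : ℝ), ε < c i₀ - lo :=
          nhdsWithin_le_nhds (Iio_mem_nhds (by linarith [hlo i₀]))
        have h2 : ∀ᶠ ε in 𝓝[>] (0 : ℝ), ε < t - c i₀ :=
          nhdsWithin_le_nhds (Iio_mem_nhds (by linarith))
        have h5 : ∀ᶠ ε in 𝓝[>] (0 : ℝ), ε < r i₀ ^ 2 / 2 :=
          nhdsWithin_le_nhds (Iio_mem_nhds (by positivity))
        have h3 : ∀ᶠ ε in 𝓝[>] (0 : ℝ), ∀ i, i ≠ i₀ → ε < |c i - c i₀| := by
          rw [Filter.eventually_all]
          intro i
          rw [Filter.eventually_imp_distrib_left]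
          intro hi
          refine nhdsWithin_le_nhds (Iio_mem_nhds (abs_pos.2 (sub_ne_zero.2 ?_)))
          exact fun h => hi (hinj h)
        obtain ⟨ε, ⟨⟨⟨h1, h2⟩, h5⟩, h3⟩, h4⟩ :=
          ((((h1.and h2).and h5).and h3).and (self_mem_nhdsWithin (s := Ioi (0 : ℝ)))).exists
        exact ⟨ε, h4, h1, h2, h5, h3⟩
      obtain ⟨ε₁, hε₁, hcrit⟩ := hh_critical hP hgP hg hgn hF hFg (hbox i₀) hε₀ (by
        intro x hx h1 h2 h3
        refine hdesc x hx (by linarith) fun i hi => ?_
        rcases eq_or_ne i i₀ with rfl | hne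
        · exact h3 hi
        · have h4 := (hbox i).value_zero hi
          have h5 := hε₀i i hne
          rw [← h4] at h5
          have h6 : |F x - c i₀| ≤ ε₀ := abs_le.2 ⟨by linarith, by linarith⟩
          linarith) (k := k) (fun l a b h1 h2 j => hh_cube_le l h1 h2 1 j)
      set ε := min ε₀ ε₁ with hεdef
      have hε : 0 < ε := lt_min hε₀ hε₁
      have hεε₀ : ε ≤ ε₀ := min_le_left _ _
      have hεε₁ : ε ≤ ε₁ := min_le_right _ _
      have e1 : Rel g χ (Sub' P F (c i₀ + ε)) (Sub' P F (c i₀ - ε))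
          fun j => if j = p i₀ then 1 else 0 := by
        refine Rel.of_eq fun j => ?_
        have h1 := hcrit ε hε hεε₁ hχ j
        by_cases hj : j = p i₀
        · rw [if_pos hj] at h1 ⊢
          refine le_antisymm (h1.trans (by simp)) ?_
          rw [hj, Nat.cast_one]
          exact hh_critical_ge hgP hg hF (hbox i₀) hχ hε (by linarith)
        · rw [if_neg hj] at h1 ⊢
          exact le_antisymm (h1.trans (by simp)) (by simp)
      have e2 : Rel g χ (Sub' P F t) (Sub' P F (c i₀ + ε)) 0 := by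
        refine hregular _ _ (by linarith [hlo i₀]) fun i hi => ?_
        have h1 := hmax' i (lt_of_le_of_ne hi.2 (hct i))
        linarith [hi.1]
      have hins : (Finset.univ.filter fun i => c i < t) =
          insert i₀ (Finset.univ.filter fun i => c i < c i₀ - ε) := by
        ext i
        simp only [Finset.mem_filter, Finset.mem_univ, true_and, Finset.mem_insert]
        constructor
        · intro hi
          rcases eq_or_ne i i₀ with rfl | hne
          · exact Or.inl rfl
          · right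
            have h5 := hε₀i i hne
            have h6 := hmax' i hi
            rw [abs_of_nonpos (by linarith)] at h5
            linarith
        · rintro (rfl | hi)
          · exact hi₀t
          · linarith
      have hnot : i₀ ∉ (Finset.univ.filter fun i => c i < c i₀ - ε) := by
        intro hi
        have := (Finset.mem_filter.1 hi).2
        linarith
      have e3 := ih _ ?_ (c i₀ - ε) (by linarith) (fun i hi => ?_) rfl
      · have h1 := (e3.triple (Sub'_mono (by linarith)) (Sub'_mono (by linarith))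
          (Sub'_inv hgP hFg _) e1).triple (Sub'_mono (by linarith [hlo i₀]))
          (Sub'_mono (by linarith)) (Sub'_inv hgP hFg _) e2
        rw [hins, Finset.sum_insert hnot, add_comm]
        rwa [add_zero] at h1
      · rw [← hN, hins, Finset.card_insert_of_notMem hnot]
        exact Nat.lt_succ_self _
      · rcases eq_or_ne i i₀ with rfl | hne
        · linarith
        · have h5 := hε₀i i hne
          rw [hi, sub_sub_cancel_left, abs_neg, abs_of_pos hε] at h5
          linarith
  obtain ⟨t, ht1, ht2⟩ : ∃ t : ℝ, max lo hi ≤ t ∧ ∀ i, c i < t := by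
    have h1 : ∀ᶠ t in Filter.atTop, max lo hi ≤ t := Filter.eventually_ge_atTop _
    have h2 : ∀ᶠ t in Filter.atTop, ∀ i, c i < t := by
      rw [Filter.eventually_all]
      exact fun i => Filter.eventually_gt_atTop _
    exact (h1.and h2).exists
  have hXt : Sub' P F t = P := by
    ext x
    exact ⟨fun hx => hx.1, fun hx => ⟨hx, (hhi x hx).trans ((le_max_right _ _).trans ht1)⟩⟩
  have h1 := key _ t ((le_max_left _ _).trans ht1) (fun i => (ht2 i).ne) rfl
  rw [hXt, Finset.filter_true_of_mem fun i _ => ht2 i] at h1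
  have e : (fun j => (Finset.univ.filter fun i => p i = j).card) =
      ∑ i, fun j => if j = p i then 1 else 0 := by
    funext j
    rw [Finset.sum_apply, Finset.card_filter]
    exact Finset.sum_congr rfl fun i _ => by simp only [eq_comm]
  rw [e]
  exact h1

end Vale.Agent.N265
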