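import Vale.Agent.N265.Les
import Vale.Agent.P265.H336.Morse

/-! The Künneth formula for the product of a pair with the circle. -/

open Set Matrix Topology

namespace Vale.Agent.N265

open Vale.Agent.P265.AS

theorem continuous_coeC : Continuous fun z : Circle => (z : ℂ) := continuous_induced_dom

theorem re_sq_add (c : Circle) : (c : ℂ).re ^ 2 + (c : ℂ).im ^ 2 = 1 := by
  have h := Circle.normSq_coe c
  rw [Complex.normSq_apply] at h
  linarith

theorem exp_arcsin_im {t : ℝ} (ht : |t| ≤ 1) : (Circle.exp (Real.arcsin t) : ℂ).im = t := by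
  rw [Circle.coe_exp, Complex.exp_ofReal_mul_I_im,
    Real.sin_arcsin (abs_le.1 ht).1 (abs_le.1 ht).2]

theorem exp_arcsin_re (t : ℝ) : 0 ≤ (Circle.exp (Real.arcsin t) : ℂ).re := by
  rw [Circle.coe_exp, Complex.exp_ofReal_mul_I_re]
  exact Real.cos_arcsin_nonneg t

theorem abs_im_le (c : Circle) : |(c : ℂ).im| ≤ 1 :=
  (Complex.abs_im_le_norm _).trans (Circle.norm_coe c).le

theorem exp_arcsin {c : Circle} (hc : 0 ≤ (c : ℂ).re) :
    Circle.exp (Real.arcsin (c : ℂ).im) = c := by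
  apply Circle.ext
  have h1 := exp_arcsin_im (abs_im_le c)
  refine Complex.ext ?_ h1
  have h2 := re_sq_add (Circle.exp (Real.arcsin (c : ℂ).im))
  have h3 := re_sq_add c
  rw [h1] at h2
  exact (pow_left_inj₀ (exp_arcsin_re _) hc two_ne_zero).1 (by linarith)

/-- The contraction of the circle minus `-1` to the point `1`. -/
noncomputable def con (s : ℝ) (c : Circle) : Circle := Circle.exp ((1 - s) * Complex.arg c)

theorem con_zero (c : Circle) : con 0 c = c := by simp [con, Circle.exp_arg]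

theorem con_one (c : Circle) : con 1 c = 1 := by simp [con]

theorem re_le_con {s : ℝ} (hs : s ∈ Icc (0 : ℝ) 1) (c : Circle) :
    (c : ℂ).re ≤ (con s c : ℂ).re := by
  conv_lhs => rw [← Circle.exp_arg c]
  rw [con, Circle.coe_exp, Circle.coe_exp, Complex.exp_ofReal_mul_I_re,
    Complex.exp_ofReal_mul_I_re, ← Real.cos_abs, ← Real.cos_abs ((1 - s) * _)]
  refine Real.cos_le_cos_of_nonneg_of_le_pi (abs_nonneg _) (Complex.abs_arg_le_pi _) ?_
  rw [abs_mul, abs_of_nonneg (by linarith [hs.2] : 0 ≤ 1 - s)]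
  nlinarith [hs.1, abs_nonneg (Complex.arg c)]

variable {E : Type} [PseudoMetricSpace E] {k : Type} [Field k] {g : E → E} {X A : Set E}

/-- The part of `X × S¹` over `A` or over the arc `Re c ≥ -3/5`. -/
def mid (X A : Set E) : Set (E × Circle) := {p | p.1 ∈ X ∧ (p.1 ∈ A ∨ -(3 / 5) ≤ (p.2 : ℂ).re)}

omit [PseudoMetricSpace E] in
theorem inv_mid (hX : Inv g X) (hA : Inv g A) : Inv (Prod.map g id) (mid X A) := by
  rintro ⟨x, c⟩
  simp only [mid, Prod.map, id, mem_ofPred_eq, hX x, hA x]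

theorem re_lt {p q : E × Circle} {δ : ℝ} (h : dist p q < δ) : |(p.2 : ℂ).re - (q.2 : ℂ).re| < δ := by
  have h1 : dist p.2 q.2 < δ := (le_max_right _ _).trans_lt h
  have h2 : ‖(p.2 : ℂ) - q.2‖ < δ := by rw [← dist_eq_norm]; exact h1
  rw [← Complex.sub_re]
  exact (Complex.abs_re_le_norm _).trans_lt h2

theorem isMapP_one :
    IsMapP g (Prod.map g id) X A (mid X A) (A ×ˢ univ) fun x => (x, (1 : Circle)) := by
  refine ⟨fun x hx => ⟨hx, Or.inr (by norm_num)⟩, fun x hx => ⟨hx, mem_univ _⟩, fun _ _ => rfl,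
    fun ε hε => ⟨ε, hε, fun x _ y _ h => ?_⟩⟩
  rw [Prod.dist_eq, max_lt_iff]
  exact ⟨h, by simpa using hε⟩

theorem hh_mid_le (hX : IsCompact X) (hAX : A ⊆ X) (hgX : Inv g X) (hgA : Inv g A) (χ : k)
    (j : ℕ) : hh (Prod.map g id) χ (mid X A) (A ×ˢ univ) j ≤ hh g χ X A j := by
  set L : Set (E × Circle) := {p | p ∈ mid X A ∧ -(4 / 5) ≤ (p.2 : ℂ).re} with hL
  have hgL : Inv (Prod.map g id) L := by
    rintro ⟨x, c⟩
    have := inv_mid hgX hgA (x, c)
    simp only [hL, Prod.map, id, mem_ofPred_eq] at this ⊢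
    rw [this]
  have e1 := hh_le_excision (k := k) (g := Prod.map g id) (X := mid X A) (A := A ×ˢ univ) (L := L)
    (fun x hx => hx.1) hgL (δ := 1 / 5) (by norm_num) (fun x hx hxA y hy hxy => by
      refine ⟨hy, ?_⟩
      have h1 : -(3 / 5) ≤ (x.2 : ℂ).re := hx.2.resolve_left fun h => hxA ⟨h, mem_univ _⟩
      have h2 := (abs_lt.1 (re_lt hxy)).2
      linarith) χ j
  refine e1.trans ?_
  have hm : ∀ s ∈ Icc (0 : ℝ) 1, ∀ x ∈ L, (x.1, con s x.2) ∈ L := by
    intro s hs x hx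
    have h1 := re_le_con hs x.2
    exact ⟨⟨hx.1.1, hx.1.2.imp id fun h => h.trans h1⟩, hx.2.trans h1⟩
  refine hh_le_of_retract (φ := fun x => x.1) (ψ := fun x => (x, 1))
    (H := fun s x => (x.1, con s x.2)) ?_ ?_ ?_ inter_subset_left hAX
    (fun x _ => by rw [con_zero]) (fun x _ => by rw [con_one]) χ j
  · exact ⟨fun x hx => hx.1.1, fun x hx => hx.2.1, fun _ _ => rfl, fun ε hε => ⟨ε, hε,
      fun x _ y _ h => (le_max_left _ _).trans_lt h⟩⟩
  · have h1 := isMapP_one (g := g) (X := X) (A := A)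
    exact ⟨fun x hx => ⟨h1.mapsX x hx, by norm_num⟩,
      fun x hx => ⟨⟨h1.mapsX x (hAX hx), by norm_num⟩, h1.mapsA x hx⟩, h1.eqv, h1.uc⟩
  · refine ⟨hm, fun s hs x hx => ⟨hm s hs x hx.1, hx.2.1, mem_univ _⟩, fun _ _ _ _ => rfl,
      fun ε hε => ?_⟩
    have hK : IsCompact (X ×ˢ {c : Circle | -(4 / 5) ≤ (c : ℂ).re}) :=
      hX.prod (isClosed_le continuous_const (Complex.continuous_re.comp continuous_coeC)).isCompact
    obtain ⟨δ, hδ, h⟩ := uc_of_compact (H := fun s (x : E × Circle) => (x.1, con s x.2)) hK (by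
      refine ContinuousOn.prodMk (by fun_prop) ?_
      refine Circle.exp.continuous.comp_continuousOn (ContinuousOn.mul (by fun_prop) ?_)
      intro q hq
      refine ContinuousAt.continuousWithinAt ?_
      have hc : Continuous fun q : ℝ × (E × Circle) => (q.2.2 : ℂ) :=
        continuous_coeC.comp (by fun_prop)
      refine ContinuousAt.comp (g := Complex.arg) (f := fun q : ℝ × (E × Circle) => (q.2.2 : ℂ))
        (Complex.continuousAt_arg ?_) hc.continuousAt
      by_contra hcon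
      rw [Complex.mem_slitPlane_iff, not_or, not_lt, not_not] at hcon
      have h1 := re_sq_add q.2.2
      have h2 : -(4 / 5) ≤ (q.2.2 : ℂ).re := hq.2.2
      rw [hcon.2] at h1
      nlinarith [hcon.1]) ε hε
    exact ⟨δ, hδ, fun s hs t ht x hx y hy => h s hs t ht x ⟨hx.1.1, hx.2⟩ y ⟨hy.1.1, hy.2⟩⟩

theorem hh_top_eq (hX : IsCompact X) (hgX : Inv g X) (χ : k) (j : ℕ) :
    hh (Prod.map g id) χ (X ×ˢ univ) (mid X A) j =
      hh (Prod.map g id) χ (sus X 1) (sus₀ X A 1 (4 / 5)) j := by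
  set L : Set (E × Circle) := {p | p.1 ∈ X ∧ (p.2 : ℂ).re ≤ 0} with hL
  have hgL : Inv (Prod.map g id) L := by
    rintro ⟨x, c⟩
    simp only [hL, Prod.map, id, mem_ofPred_eq, hgX x]
  have hex : ∀ x ∈ X ×ˢ (univ : Set Circle), x ∉ mid X A → ∀ y ∈ X ×ˢ (univ : Set Circle),
      dist x y < 3 / 5 → y ∈ L := by
    intro x hx hxA y hy hxy
    refine ⟨hy.1, ?_⟩
    have h1 : ¬ -(3 / 5) ≤ (x.2 : ℂ).re := fun h => hxA ⟨hx.1, Or.inr h⟩
    have h2 := (abs_lt.1 (re_lt hxy)).1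
    linarith
  have hLX : L ⊆ X ×ˢ univ := fun x hx => ⟨hx.1, mem_univ _⟩
  rw [le_antisymm (hh_le_excision hLX hgL (by norm_num) hex χ j)
    (hh_ge_excision hLX hgL (by norm_num) hex χ j)]
  have hφ : IsMapP (Prod.map g id) (Prod.map g id) L (L ∩ mid X A) (sus X 1) (sus₀ X A 1 (4 / 5))
      fun p => (p.1, ((-p.2 : Circle) : ℂ).im) := by
    refine ⟨fun p hp => ⟨hp.1, abs_im_le _⟩, fun p hp => ⟨hp.1.1, abs_im_le _,
      hp.2.2.imp id fun h => ?_⟩, fun _ _ => rfl, fun ε hε => ?_⟩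
    · have h1 := re_sq_add p.2
      have h2 : (p.2 : ℂ).re ≤ 0 := hp.1.2
      simp only [Circle.coe_neg, Complex.neg_im, abs_neg]
      rw [← sq_abs (p.2 : ℂ).im] at h1
      nlinarith [abs_nonneg (p.2 : ℂ).im]
    · obtain ⟨δ, hδ, h⟩ := uc_of_compact' (f := fun p : E × Circle => (p.1, ((-p.2 : Circle) : ℂ).im))
        (hX.prod isCompact_univ) (Continuous.continuousOn (continuous_fst.prodMk (by
          simp only [Circle.coe_neg]
          exact Complex.continuous_im.comp (continuous_coeC.comp continuous_snd).neg))) ε hε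
      exact ⟨δ, hδ, fun x hx y hy => h x (hLX hx) y (hLX hy)⟩
  have hψ : IsMapP (Prod.map g id) (Prod.map g id) (sus X 1) (sus₀ X A 1 (4 / 5)) L (L ∩ mid X A)
      fun p => (p.1, -Circle.exp (Real.arcsin p.2)) := by
    have hm : ∀ p ∈ sus X 1, (p.1, -Circle.exp (Real.arcsin p.2)) ∈ L := fun p hp =>
      ⟨hp.1, by simpa using exp_arcsin_re p.2⟩
    refine ⟨hm, fun p hp => ⟨hm p (sus₀_sub hp), hp.1, hp.2.2.imp id fun h => ?_⟩, fun _ _ => rfl,
      fun ε hε => ?_⟩
    · have h1 := re_sq_add (Circle.exp (Real.arcsin p.2))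
      rw [exp_arcsin_im hp.2.1, ← sq_abs p.2] at h1
      have h2 := exp_arcsin_re p.2
      simp only [Circle.coe_neg, Complex.neg_re, neg_le_neg_iff]
      nlinarith
    · obtain ⟨δ, hδ, h⟩ := uc_of_compact'
        (f := fun p : E × ℝ => (p.1, -Circle.exp (Real.arcsin p.2)))
        (hX.prod (isCompact_Icc (a := (-1 : ℝ)) (b := 1))) (Continuous.continuousOn
          (continuous_fst.prodMk ((Circle.exp.continuous.comp
            (Real.continuous_arcsin.comp continuous_snd)).neg))) ε hε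
      exact ⟨δ, hδ, fun x hx y hy => h x ⟨hx.1, abs_le.1 hx.2⟩ y ⟨hy.1, abs_le.1 hy.2⟩⟩
  refine le_antisymm (hh_le_of_section hφ hψ inter_subset_left sus₀_sub (fun p hp => ?_) χ j)
    (hh_le_of_section hψ hφ sus₀_sub inter_subset_left (fun p hp => ?_) χ j)
  · refine Prod.ext rfl ?_
    have h2 : (p.2 : ℂ).re ≤ 0 := hp.2
    simp only
    rw [exp_arcsin (by simpa using h2), neg_neg]
  · refine Prod.ext rfl ?_
    simp only [neg_neg]
    exact exp_arcsin_im hp.2

/-- **Künneth formula** for the circle. -/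
theorem kunneth (hX : IsCompact X) (hAX : A ⊆ X) (hgX : Inv g X) (hgA : Inv g A) (χ : k)
    {h : ℕ → ℕ} (hh0 : ∀ j, hh (Prod.map g id) χ (X ×ˢ (univ : Set Circle)) (A ×ˢ univ) j = h j) :
    ∃ h' : ℕ → ℕ, (∀ j, hh g χ X A j = h' j) ∧ h 0 = h' 0 ∧ ∀ j, h (j + 1) = h' (j + 1) + h' j := by
  have i1 : A ×ˢ (univ : Set Circle) ⊆ mid X A := fun p hp => ⟨hAX hp.1, Or.inl hp.1⟩
  have i2 : mid X A ⊆ X ×ˢ univ := fun p hp => ⟨hp.1, mem_univ _⟩
  have i3 := inv_mid hgX hgA
  have s1 := fun j => card_split ((hh0 j).symm.trans (les_mid i1 i2 i3 j))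
  choose β α hβ hα hs using s1
  have hβ' : ∀ j, hh g χ X A j ≤ β j := by
    intro j
    rw [← hβ]
    refine qr_le_of_inj (pb Prod.fst) (fun c hc => pb_mem_Zs ?_ (i1.trans i2) hc) fun c _ hc => ?_
    · exact ⟨fun x hx => hx.1, fun x hx => hx.1, fun _ _ => rfl, fun ε hε => ⟨ε, hε,
        fun x _ y _ h => (le_max_left _ _).trans_lt h⟩⟩
    · exact pb_mem_Bs isMapP_one hAX hc
  have hfin : ∀ j, ∃ n : ℕ, hh g χ X A j = n := fun j =>
    Cardinal.lt_aleph0.1 ((hβ' j).trans_lt Cardinal.natCast_lt_aleph0)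
  choose h' hh' using hfin
  have hfin2 : ∀ j, ∃ n : ℕ, hh (Prod.map g id) χ (mid X A) (A ×ˢ (univ : Set Circle)) j = n ∧
      n ≤ h' j := fun j => by
    have h1 := (hh_mid_le hX hAX hgX hgA χ j).trans (hh' j).le
    obtain ⟨n, hn⟩ := Cardinal.lt_aleph0.1 (h1.trans_lt Cardinal.natCast_lt_aleph0)
    exact ⟨n, hn, by rw [hn] at h1; exact_mod_cast h1⟩
  have key : ∀ j, β j = h' j ∧ qr (Zs (Prod.map g id) χ (mid X A) (A ×ˢ (univ : Set Circle)) j)
      (Zs (Prod.map g id) χ (X ×ˢ univ) (A ×ˢ univ) j ⊔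
        Bs (Prod.map g id) χ (mid X A) (A ×ˢ univ) j) = 0 := by
    intro j
    obtain ⟨n, hn, hn'⟩ := hfin2 j
    obtain ⟨x, y, h1, h2, h3⟩ := card_split (hn.symm.trans (les_right i2 j))
    have h4 : y = β j := by
      have := h2.symm.trans (hβ j)
      exact_mod_cast this
    have h5 : h' j ≤ β j := by
      have := (hh' j).symm.le.trans (hβ' j)
      exact_mod_cast this
    refine ⟨by omega, ?_⟩
    rw [h1, show x = 0 by omega, Nat.cast_zero]
  refine ⟨h', hh', ?_, fun j => ?_⟩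
  · have h1 := les_zero (g := Prod.map g id) (χ := χ) (X := X ×ˢ univ) i1
    rw [hh_top_eq hX hgX, hh_sus_zero (by norm_num) (by norm_num), hα] at h1
    have h2 : α 0 = 0 := by exact_mod_cast h1.symm
    rw [hs, h2, (key 0).1, add_zero]
  · have h1 := les_left (χ := χ) i1 i2 i3 j
    rw [hh_top_eq hX hgX, le_antisymm (hh_sus_le hAX hgX hgA (by norm_num) (by norm_num) χ j)
      (hh_sus_ge hAX (by norm_num) (by norm_num) χ j), hα, (key j).2, add_zero, hh'] at h1
    have h2 : h' j = α (j + 1) := by exact_mod_cast h1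
    rw [hs, (key _).1, h2]

end Vale.Agent.N265
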