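import Vale.Agent.N265.AbsRel
import Vale.Agent.N265.Kunneth
import Vale.Agent.P265.H336.MorseIneq

/-!
# Strong Morse inequalities for functions quadratic at infinity
-/

open Set Manifold
open scoped ContDiff Topology

namespace Vale.Agent.N265

open Vale.Agent.P265 Vale.Agent.P265.Loc Vale.Agent.P265.AS Vale.Agent.P265.H690
  Vale.Agent.P265.H934

/-- `N` is equivariantly the product of `N'` with a circle on which the deck map acts trivially. -/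
def Split {N N' : Type} [TopologicalSpace N] [TopologicalSpace N'] (g : N → N) (g' : N' → N') :
    Prop := ∃ Φ : N ≃ₜ N' × Circle, ∀ x, Φ (g x) = (g' (Φ x).1, (Φ x).2)

theorem Split.hh_eq {N N' Z k : Type} [MetricSpace N] [CompactSpace N] [MetricSpace N']
    [CompactSpace N'] [MetricSpace Z] [Field k] {g : N → N} {g' : N' → N'} (h : Split g g')
    {K K₀ : Set Z} (hK : IsCompact K) (hK₀ : K₀ ⊆ K) (χ : k) (j : ℕ) :
    hh (Prod.map g id) χ (univ ×ˢ K) (univ ×ˢ K₀) j =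
      hh (Prod.map (Prod.map g' id) id) χ ((univ ×ˢ K) ×ˢ (univ : Set Circle))
        ((univ ×ˢ K₀) ×ˢ univ) j := by
  obtain ⟨Φ, hΦ⟩ := h
  have hφ : IsMapP (Prod.map g id) (Prod.map (Prod.map g' id) id) (univ ×ˢ K) (univ ×ˢ K₀)
      ((univ ×ˢ K) ×ˢ (univ : Set Circle)) ((univ ×ˢ K₀) ×ˢ univ)
      fun x => (((Φ x.1).1, x.2), (Φ x.1).2) := by
    refine ⟨fun x hx => ⟨⟨mem_univ _, hx.2⟩, mem_univ _⟩,
      fun x hx => ⟨⟨mem_univ _, hx.2⟩, mem_univ _⟩, fun x _ => ?_,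
      uc_of_compact' (isCompact_univ.prod hK) (by fun_prop)⟩
    simp only [Prod.map, hΦ, id]
  have hψ : IsMapP (Prod.map (Prod.map g' id) id) (Prod.map g id)
      ((univ ×ˢ K) ×ˢ (univ : Set Circle)) ((univ ×ˢ K₀) ×ˢ univ) (univ ×ˢ K) (univ ×ˢ K₀)
      fun x => (Φ.symm (x.1.1, x.2), x.1.2) := by
    refine ⟨fun x hx => ⟨mem_univ _, hx.1.2⟩, fun x hx => ⟨mem_univ _, hx.1.2⟩, fun x _ => ?_,
      uc_of_compact' ((isCompact_univ.prod hK).prod isCompact_univ) (by fun_prop)⟩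
    refine Prod.ext (Φ.injective ?_) rfl
    simp only [Prod.map, hΦ, id, Homeomorph.apply_symm_apply]
  have i1 : (univ : Set N) ×ˢ K₀ ⊆ univ ×ˢ K := prod_mono le_rfl hK₀
  have i2 : ((univ : Set N') ×ˢ K₀) ×ˢ (univ : Set Circle) ⊆ (univ ×ˢ K) ×ˢ univ :=
    prod_mono (prod_mono le_rfl hK₀) le_rfl
  exact le_antisymm (hh_le_of_section hφ hψ i1 i2 (fun x _ => by simp) χ j)
    (hh_le_of_section hψ hφ i2 i1 (fun x _ => by simp) χ j)

variable {V : Type} [NormedAddCommGroup V] [NormedSpace ℝ V] [FiniteDimensional ℝ V]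
  {M : Type} [MetricSpace M] [CompactSpace M] [ChartedSpace V M] [IsManifold 𝓘(ℝ, V) ∞ M]
  {Z : Type} [NormedAddCommGroup Z] [NormedSpace ℝ Z] [FiniteDimensional ℝ Z]

/-- `F` has the standard form of type `(p, q)` in the chart at `x`. -/
def Std (V : Type) [NormedAddCommGroup V] [NormedSpace ℝ V] [ChartedSpace V M] (F : M × Z → ℝ)
    (x : M × Z) (p q : ℕ) : Prop :=
  ∃ (T : (V × Z) ≃L[ℝ] (Fin p → ℝ) × (Fin q → ℝ)) (r : ℝ), 0 < r ∧
    ∀ y, ‖T (y - extChartAt (𝓘(ℝ, V).prod 𝓘(ℝ, Z)) x x)‖ ≤ r →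
      y ∈ (extChartAt (𝓘(ℝ, V).prod 𝓘(ℝ, Z)) x).target ∧
      F ((extChartAt (𝓘(ℝ, V).prod 𝓘(ℝ, Z)) x).symm y) = F x -
        ∑ i, (T (y - extChartAt (𝓘(ℝ, V).prod 𝓘(ℝ, Z)) x x)).1 i ^ 2 +
        ∑ j, (T (y - extChartAt (𝓘(ℝ, V).prod 𝓘(ℝ, Z)) x x)).2 j ^ 2

omit [CompactSpace M] in
theorem core {N : Type} [MetricSpace N] [CompactSpace N] {n : ℕ} (C : CycCover M N n)
    {F : M × Z → ℝ} (hF : ContMDiff (𝓘(ℝ, V).prod 𝓘(ℝ, Z)) 𝓘(ℝ, ℝ) ∞ F)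
    (hfin : (Crit (𝓘(ℝ, V).prod 𝓘(ℝ, Z)) F).Finite)
    (hinj : InjOn F (Crit (𝓘(ℝ, V).prod 𝓘(ℝ, Z)) F)) (p q : M × Z → ℕ)
    (hstd : ∀ x ∈ Crit (𝓘(ℝ, V).prod 𝓘(ℝ, Z)) F, Std V F x (p x) (q x))
    {p₀ q₀ : ℕ} {T : Z ≃L[ℝ] (Fin p₀ → ℝ) × (Fin q₀ → ℝ)} {R₁ a' a b lo hi : ℝ}
    (hB : IsBox (V := V) F T R₁ a' a b lo hi) {k : Type} [Field k] (χ : k) (hχ : χ ^ n = 1)
    {N' : Type} [MetricSpace N'] [CompactSpace N'] {g' : N' → N'} (hS : Split C.g g') :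
    ∃ s : ℕ → ℕ, {x ∈ Crit (𝓘(ℝ, V).prod 𝓘(ℝ, Z)) F | p x = 0}.ncard = s 0 ∧
      (∀ j, {x ∈ Crit (𝓘(ℝ, V).prod 𝓘(ℝ, Z)) F | p x = j + 1}.ncard = s (j + 1) + s j) ∧
      ∀ j, hh g' χ univ ∅ j ≤ s (j + p₀) := by
  classical
  set K : Set Z := {z | ‖(T z).1‖ ≤ a ∧ ‖(T z).2‖ ≤ b} with hK
  have hcint : ∀ x ∈ Crit (𝓘(ℝ, V).prod 𝓘(ℝ, Z)) F, x.2 ∈ interior K := by
    intro x hx
    have h1 : ‖T x.2‖ ≤ R₁ := hB.crit x.1 x.2 hx
    have h2 := hB.R₁_lt_a'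
    have h3 := hB.a'_lt
    have h4 := hB.R₁_lt_b
    have h5 := norm_fst_le (T x.2)
    have h6 := norm_snd_le (T x.2)
    exact mem_interior_box T (by linarith) (by linarith)
  have hbox : ∀ x ∈ Crit (𝓘(ℝ, V).prod 𝓘(ℝ, Z)) F,
      ∃ (r : ℝ) (θ : (Fin (p x) → ℝ) × (Fin (q x) → ℝ) → N × Z)
      (κ : N × Z → (Fin (p x) → ℝ) × (Fin (q x) → ℝ)) (σ : N × Z → ℕ) (L : Set (N × Z)),
      LocalBox (Prod.map C.g id) n (univ ×ˢ K) (fun x => F (C.π x.1, x.2)) (p x) (q x) (F x) r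
        θ κ σ L ∧ ∀ y, C.π y.1 = x.1 → y.2 = x.2 → y ∈ L ∧ κ y = 0 := by
    intro x hx
    obtain ⟨S, r, hr, hS⟩ := hstd x hx
    obtain ⟨r', θ, κ, σ, L, _, h1, h2⟩ := H256.exists_localBox C (hcint x hx) F S hr
      (m₀ := x.1) hS
    exact ⟨r', θ, κ, σ, L, h1, h2⟩
  choose r θ κ σ L hL hL' using hbox
  obtain ⟨m, ⟨e⟩⟩ : ∃ m : ℕ, Nonempty (Fin m ≃ Crit (𝓘(ℝ, V).prod 𝓘(ℝ, Z)) F) := by
    have := hfin.fintype
    exact ⟨_, ⟨(Fintype.equivFin _).symm⟩⟩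
  have hid : ∀ (i : ℕ) (x : N × Z), (Prod.map C.g id)^[i] x = (C.g^[i] x.1, x.2) := by
    intro i x
    rw [Prod.map_iterate, Function.iterate_id]
    rfl
  have hPc : IsCompact ((univ : Set N) ×ˢ K) := isCompact_univ.prod (isCompact_box T a b)
  have hFt : Continuous fun x : N × Z => F (C.π x.1, x.2) :=
    hF.continuous.comp ((C.cont_π.comp continuous_fst).prodMk continuous_snd)
  have hgc : Continuous (Prod.map C.g id : N × Z → _) := C.cont_g.prodMap continuous_id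
  have i1 : Inv (Prod.map C.g id) ((univ : Set N) ×ˢ K) := fun x => by simp [mem_prod]
  have i2 : ∀ x ∈ (univ : Set N) ×ˢ K, (Prod.map C.g id)^[n] x = x :=
    fun x _ => by rw [hid, C.iter]
  have i3 : ∀ x ∈ (univ : Set N) ×ˢ K, F (C.π (Prod.map C.g id x).1, (Prod.map C.g id x).2) =
      F (C.π x.1, x.2) := fun x _ => by simp only [Prod.map_fst, Prod.map_snd, C.π_g, id_eq]
  have i4 : Function.Injective fun i => F (e i) :=
    fun i i' h => e.injective (Subtype.ext (hinj (e i).2 (e i').2 h))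
  have i5 : ∀ i, lo < F (e i) := fun i => hB.low _ _ (hB.crit _ _ (e i).2)
  have i6 : ∀ x ∈ (univ : Set N) ×ˢ K, F (C.π x.1, x.2) ≤ hi :=
    fun x hx => hB.top _ _ hx.2.1 hx.2.2
  have i7 : ∀ x ∈ (univ : Set N) ×ˢ K, lo ≤ F (C.π x.1, x.2) →
      (∀ i, ¬ (x ∈ L (e i) (e i).2 ∧ κ (e i) (e i).2 x = 0)) →
      ∃ D, Descent (Prod.map C.g id) ((univ : Set N) ×ˢ K) (fun x => F (C.π x.1, x.2)) D ∧
        ∃ U ∈ 𝓝[(univ : Set N) ×ˢ K] x, ∀ y ∈ U,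
          F (C.π (D 1 y).1, (D 1 y).2) < F (C.π y.1, y.2) := by
    intro x hx hlo hne
    have hnc : (C.π x.1, x.2) ∉ Crit (𝓘(ℝ, V).prod 𝓘(ℝ, Z)) F := by
      intro hc
      obtain ⟨i, hi⟩ := e.surjective ⟨_, hc⟩
      refine hne i (hL' _ _ x ?_ ?_)
      · rw [hi]
      · rw [hi]
    have ha1 : ‖(T x.2).1‖ < a := by
      rcases lt_or_eq_of_le hx.2.1 with h | h
      · exact h
      · exfalso
        have := hB.bottom (C.π x.1) x.2 (by rw [h]; exact hB.a'_lt.le) hx.2.2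
        exact absurd hlo (not_le.2 this)
    by_cases hb1 : ‖(T x.2).2‖ < b
    · exact H933.exists_descent_noncrit C hF (mem_interior_box T ha1 hb1) hnc
    · refine ⟨_, wall_descent hB C.π C.g, _,
        mem_nhdsWithin_of_mem_nhds (wall_strict hB C.π (x := x) ?_), fun y hy => hy⟩
      exact hB.R₁_lt_b.trans_le (not_lt.1 hb1)
  obtain ⟨h, γ, h1, h2, h3⟩ := absRel (Prod.map C.g id) n ((univ : Set N) ×ˢ K)
    (fun x => F (C.π x.1, x.2)) m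
    (fun i => F (e i)) (fun i => r (e i) (e i).2) (fun i => p (e i)) (fun i => q (e i))
    (fun i => θ (e i) (e i).2) (fun i => κ (e i) (e i).2) (fun i => σ (e i) (e i).2)
    (fun i => L (e i) (e i).2) lo hi hPc i1 hgc.continuousOn i2 hFt.continuousOn i3 i4
    (fun i => hL _ (e i).2) i5 i6 i7 χ hχ
  have hcard : ∀ j, {x ∈ Crit (𝓘(ℝ, V).prod 𝓘(ℝ, Z)) F | p x = j}.ncard =
      (Finset.univ.filter fun i => p (e i) = j).card := by
    intro j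
    rw [← Set.ncard_coe_finset, ← Set.ncard_image_of_injective _
      (Subtype.val_injective.comp e.injective)]
    congr 1
    ext x
    constructor
    · rintro ⟨hx, hj⟩
      obtain ⟨i, hi⟩ := e.surjective ⟨x, hx⟩
      exact ⟨i, by simp [hi, hj], by simp [hi]⟩
    · rintro ⟨i, hi, rfl⟩
      exact ⟨(e i).2, by simpa using hi⟩
  set K₀ : Set Z := {z ∈ K | R₁ < ‖T z‖ ∧ q0 (T z) ≤ lo} with hK₀
  have hbot : ∀ {N₁ : Type} (π : N₁ → M),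
      {x | x ∈ (univ : Set N₁) ×ˢ K ∧ F (π x.1, x.2) ≤ lo} = univ ×ˢ K₀ := by
    intro N₁ π
    ext x
    constructor
    · rintro ⟨hx, hxz⟩
      have h4 : R₁ < ‖T x.2‖ := by
        by_contra h5
        exact absurd hxz (not_le.2 (hB.low _ _ (not_lt.1 h5)))
      exact ⟨mem_univ _, hx.2, h4, by rwa [hB.quad _ _ h4] at hxz⟩
    · rintro ⟨-, hx, h4, h5⟩
      exact ⟨⟨mem_univ _, hx⟩, by rwa [hB.quad _ _ h4]⟩
  rw [hbot C.π] at h1
  obtain ⟨h', k1, k2, k3⟩ := kunneth (g := Prod.map g' id) (X := (univ : Set N') ×ˢ K)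
    (A := univ ×ˢ K₀) (isCompact_univ.prod (isCompact_box T a b))
    (prod_mono le_rfl fun z hz => hz.1) (fun x => by simp [mem_prod]) (fun x => by simp [mem_prod])
    χ (h := h) fun j => (hS.hh_eq (isCompact_box T a b) (fun z hz => hz.1) χ j).symm.trans (h1 j)
  refine ⟨fun j => h' j + γ j, ?_, fun j => ?_, fun j => ?_⟩
  · rw [hcard]
    simp only at h2 ⊢
    omega
  · have h4 := h3 j
    have h5 := k3 j
    rw [hcard]
    simp only at h4 ⊢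
    omega
  · obtain ⟨Φ, -⟩ := hS
    have h4 := (hh_le_cylinder g' (hB.R₁_pos.trans hB.R₁_lt_a') hB.a'_lt.le χ p₀ j).trans
      (hh_box_le hB g' (fun y => C.π (Φ.symm (y, 1))) χ (j + p₀))
    rw [← hK, hbot fun y => C.π (Φ.symm (y, 1)), k1] at h4
    exact h4.trans (Nat.cast_le.2 (Nat.le_add_right _ _))

/-- The strong Morse inequalities on a manifold whose cyclic covers split off a circle: the numbers
of critical points are `s (j + 1) + s j`, and `s` bounds the ranks of the other factor. -/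
theorem morse_split {F : M × Z → ℝ} (hF : IsMorse (𝓘(ℝ, V).prod 𝓘(ℝ, Z)) F) (hQ : QuadInf F)
    (hfin : (Crit (𝓘(ℝ, V).prod 𝓘(ℝ, Z)) F).Finite) :
    ∃ (idx : M × Z → ℕ) (ν : ℕ), ∀ {N : Type} [MetricSpace N] [CompactSpace N] {n : ℕ}
      (C : CycCover M N n) {k : Type} [Field k] (χ : k), χ ^ n = 1 →
      ∀ {N' : Type} [MetricSpace N'] [CompactSpace N'] {g' : N' → N'}, Split C.g g' →
      ∃ s : ℕ → ℕ, {x ∈ Crit (𝓘(ℝ, V).prod 𝓘(ℝ, Z)) F | idx x = 0}.ncard = s 0 ∧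
        (∀ j, {x ∈ Crit (𝓘(ℝ, V).prod 𝓘(ℝ, Z)) F | idx x = j + 1}.ncard = s (j + 1) + s j) ∧
        ∀ j, hh g' χ univ ∅ j ≤ s (j + ν) := by
  classical
  obtain ⟨R, hR0, hR⟩ : ∃ R : ℝ, (Nontrivial Z → ∃ (Q : QuadraticForm ℝ Z),
        (∀ v, (∀ w, QuadraticMap.polar Q v w = 0) → v = 0) ∧ ∀ x z, R ≤ ‖z‖ → F (x, z) = Q z) ∧
      ∀ x ∈ Crit (𝓘(ℝ, V).prod 𝓘(ℝ, Z)) F, ‖x.2‖ < R := by
    obtain ⟨R₂, hR₂⟩ := (hfin.image fun x => ‖x.2‖).bddAbove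
    by_cases hn : Nontrivial Z
    · obtain ⟨Q, R, hQ1, hR0, hQ2⟩ := hQ hn
      refine ⟨max R (R₂ + 1), fun _ => ⟨Q, hQ1, fun x z hz => hQ2 x z ?_⟩, fun x hx => ?_⟩
      · exact (le_max_left _ _).trans hz
      · have := hR₂ (mem_image_of_mem _ hx)
        exact lt_of_lt_of_le (lt_of_le_of_lt this (lt_add_one _)) (le_max_right _ _)
    · refine ⟨R₂ + 1, fun h => absurd h hn, fun x hx => ?_⟩
      have := hR₂ (mem_image_of_mem _ hx)
      exact lt_of_le_of_lt this (lt_add_one _)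
  obtain ⟨F', hF's, hF'c, hF'o, hinj, hstd⟩ := exists_standard hF hfin
    (fun _ => {y | ‖y.2‖ < R}) (fun x hx => by
      have hc : Continuous fun y : M × Z => ‖y.2‖ := by fun_prop
      exact hc.continuousAt.eventually_lt_const (hR x hx))
  have hQ' : QuadInf F' := by
    intro hn
    obtain ⟨Q, hQ1, hQ2⟩ := hR0 hn
    refine ⟨Q, max R 1, hQ1, lt_max_of_lt_right one_pos, fun x z hz => ?_⟩
    rw [hF'o]
    · exact hQ2 x z ((le_max_left _ _).trans hz)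
    · intro y _ hy
      have : ‖z‖ < R := hy
      linarith [(le_max_left R 1).trans hz]
  obtain ⟨p₀, q₀, T, R₁, a', a, b, lo, hi, hB⟩ := exists_isBox hF's hQ'
  have hstd' : ∀ x ∈ Crit (𝓘(ℝ, V).prod 𝓘(ℝ, Z)) F, ∃ p q : ℕ, Std V F' x p q := by
    intro x hx
    obtain ⟨p, q, S, r, hr, hS⟩ := hstd x hx
    exact ⟨p, q, S, r, hr, fun y hy => ⟨(hS y hy).1, (hS y hy).2.2⟩⟩
  choose! p q hpq using hstd'
  refine ⟨p, p₀, fun {N} _ _ {n} C {k} _ χ hχ {N'} _ _ {g'} hS => ?_⟩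
  have e1 := core C hF's (hF'c ▸ hfin) (hF'c ▸ hinj) p q (fun x hx => hpq x (hF'c ▸ hx)) hB χ hχ hS
  rwa [hF'c] at e1

end Vale.Agent.N265
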