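import Vale.Agent.P265.H336.Htpy

/-! The long exact sequence of a triple, in terms of ranks, and the Morse relation. -/

open Set Matrix

namespace Vale.Agent.N265

open Vale.Agent.P265.AS

section LinearAlgebra

variable {k : Type} [Field k] {F : Type} [AddCommGroup F] [Module k F]

/-- Rank-nullity for `Z / B → Z / B₁`. -/
theorem qr_split (Z : Submodule k F) {B B₁ : Submodule k F} (h2 : B ≤ B₁) :
    qr Z B = qr Z B₁ + qr (Z ⊓ B₁) B := by
  have hle : B.comap Z.subtype ≤ B₁.comap Z.subtype := fun c hc => h2 hc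
  have h3 := LinearMap.rank_range_add_rank_ker (Submodule.factor hle)
  have h4 : LinearMap.range (Submodule.factor hle) = ⊤ :=
    LinearMap.range_eq_top.2 (Submodule.factor_surjective hle)
  rw [h4, rank_top] at h3
  unfold qr
  rw [← h3]
  congr 1
  let ψ : (Z ⊓ B₁ : Submodule k F) →ₗ[k] LinearMap.ker (Submodule.factor hle) :=
    LinearMap.codRestrict _ ((B.comap Z.subtype).mkQ ∘ₗ Submodule.inclusion inf_le_left) (by
      rintro ⟨c, hc⟩
      rw [LinearMap.mem_ker, LinearMap.comp_apply, Submodule.factor_mk, Submodule.mkQ_apply,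
        Submodule.Quotient.mk_eq_zero]
      exact hc.2)
  have hψ : Function.Surjective ψ := by
    rintro ⟨c, hc⟩
    obtain ⟨c, rfl⟩ := Submodule.mkQ_surjective _ c
    have hc' := hc
    rw [LinearMap.mem_ker, Submodule.factor_mk, Submodule.mkQ_apply,
      Submodule.Quotient.mk_eq_zero] at hc'
    exact ⟨⟨c, c.2, hc'⟩, rfl⟩
  have hψk : B.comap (Z ⊓ B₁).subtype = LinearMap.ker ψ := by
    ext ⟨c, hc⟩
    rw [LinearMap.mem_ker, Subtype.ext_iff]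
    simp only [ψ, LinearMap.codRestrict_apply, LinearMap.comp_apply, ZeroMemClass.coe_zero]
    rw [Submodule.mkQ_apply, Submodule.Quotient.mk_eq_zero]
    rfl
  rw [hψk]
  exact (ψ.quotKerEquivOfSurjective hψ).rank_eq.symm

end LinearAlgebra

variable {E : Type} [PseudoMetricSpace E] {k : Type} [Field k] {g : E → E} {χ : k}
  {X A B : Set E}

theorem Zs_le_Bs {p : ℕ} : Zs g χ X B p ≤ Bs g χ B A p := by
  rintro c ⟨-, ε, hε, -, h2⟩
  exact ⟨0, fun x _ => by simp, ε, hε, fun x hx => by rw [h2 x hx, d_zero]; rfl, fun _ _ => rfl⟩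

/-- Exactness at `H(X, A)`. -/
theorem exact_mid (hAB : A ⊆ B) (hgB : Inv g B) (p : ℕ) :
    qr (Zs g χ X A p ⊓ Bs g χ B A p) (Bs g χ X A p) = qr (Zs g χ X B p) (Bs g χ X A p) := by
  refine le_antisymm ?_ (qr_le_of_inj LinearMap.id
    (fun c hc => ⟨Zs_restrict le_rfl hAB hc, Zs_le_Bs hc⟩) fun c _ h => h)
  refine qr_le_of_surj LinearMap.id (fun c hc => ⟨Zs_restrict le_rfl hAB hc, Zs_le_Bs hc⟩)
    (fun c _ h => h) ?_
  rintro c ⟨⟨hc, ε, hε, h1, h2⟩, ⟨b, hb, ε', hε', h1', h2'⟩⟩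
  refine ⟨c - d (rs k B p b), ⟨hc.sub (rs_eqv hgB hb).d, min ε ε', lt_min hε hε',
    fun x hx => ?_, fun x hx => ?_⟩, ?_⟩
  · rw [d_sub, d_d, sub_zero]
    exact h1 x (hx.mono le_rfl (min_le_left _ _))
  · rw [Pi.sub_apply, d_rs hx.1, h1' x (hx.mono le_rfl (min_le_right _ _)), sub_self]
  · rw [LinearMap.id_apply, sub_sub_cancel]
    refine d_mem_Bs (rs_eqv hgB hb) hε' fun x hx => ?_
    rw [rs_of_mem fun i => hAB (hx.1 i)]
    exact h2' x hx

/-- Exactness at `H(B, A)`. -/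
theorem exact_right (hB : B ⊆ X) (p : ℕ) :
    qr (Zs g χ B A p ⊓ (Zs g χ X A p ⊔ Bs g χ B A p)) (Bs g χ B A p) =
      qr (Zs g χ X A p) (Bs g χ B A p) := by
  refine le_antisymm ?_ (qr_le_of_inj LinearMap.id
    (fun c hc => ⟨Zs_restrict hB le_rfl hc, Submodule.mem_sup_left hc⟩) fun c _ h => h)
  refine qr_le_of_surj LinearMap.id
    (fun c hc => ⟨Zs_restrict hB le_rfl hc, Submodule.mem_sup_left hc⟩) (fun c _ h => h) ?_
  rintro c ⟨-, hc⟩
  obtain ⟨z, hz, w, hw, rfl⟩ := Submodule.mem_sup.1 hc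
  exact ⟨z, hz, by simpa using hw⟩

/-- The connecting homomorphism: exactness at `H(X, B)`. -/
theorem exact_left (hAB : A ⊆ B) (hB : B ⊆ X) (hgB : Inv g B) (p : ℕ) :
    qr (Zs g χ X B (p + 1) ⊓ Bs g χ X A (p + 1)) (Bs g χ X B (p + 1)) =
      qr (Zs g χ B A p) (Zs g χ X A p ⊔ Bs g χ B A p) := by
  have hT : ∀ c ∈ Zs g χ B A p, (dL E k (p + 1) ∘ₗ rs k B (p + 1)) c ∈
      Zs g χ X B (p + 1) ⊓ Bs g χ X A (p + 1) := by
    rintro c ⟨hc, ε, hε, h1, h2⟩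
    refine ⟨⟨(rs_eqv (X := X) hgB hc).d, ε, hε, fun x hx => ?_, fun x hx => ?_⟩, ?_⟩
    · change d (d _) x = 0
      rw [d_d]; rfl
    · change d (rs k B (p + 1) c) x = 0
      rw [d_rs hx.1, h1 x hx]
    · refine d_mem_Bs (rs_eqv hgB hc) hε fun x hx => ?_
      rw [rs_of_mem fun i => hAB (hx.1 i)]
      exact h2 x hx
  refine le_antisymm (qr_le_of_surj (dL E k (p + 1) ∘ₗ rs k B (p + 1)) hT ?_ ?_)
    (qr_le_of_inj (dL E k (p + 1) ∘ₗ rs k B (p + 1)) hT ?_)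
  · rintro c ⟨hc, -⟩ hc'
    obtain ⟨z, ⟨hz, ε', hε', h1', -⟩, w, ⟨b, hb, ε, hε, h1, -⟩, rfl⟩ := Submodule.mem_sup.1 hc'
    refine ⟨rs k B (p + 1) (z + w) - z - d (rs k B p b),
      ((rs_eqv hgB hc).sub hz).sub (rs_eqv hgB hb).d, min ε ε', lt_min hε hε',
      fun x hx => ?_, fun x hx => ?_⟩
    · rw [d_sub, d_d, sub_zero, d_sub, Pi.sub_apply, h1' x (hx.mono le_rfl (min_le_right _ _)),
        sub_zero]
      rfl
    · rw [Pi.sub_apply, Pi.sub_apply, rs_of_mem hx.1, d_rs hx.1, Pi.add_apply,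
        h1 x (hx.mono le_rfl (min_le_left _ _))]
      ring
  · rintro c ⟨⟨hc, ε', hε', h1', h2'⟩, ⟨b, hb, ε, hε, h1, h2⟩⟩
    refine ⟨b, ⟨hb.mono hB, min ε ε', lt_min hε hε', fun x hx => ?_, fun x hx => ?_⟩, ?_⟩
    · rw [← h1 x (hx.mono hB (min_le_left _ _))]
      exact h2' x (hx.mono le_rfl (min_le_right _ _))
    · exact h2 x (hx.mono le_rfl (min_le_left _ _))
    · refine ⟨b - rs k B (p + 1) b, hb.sub (rs_eqv hgB (hb.mono hB)), ε, hε,
        fun x hx => ?_, fun x hx => ?_⟩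
      · rw [Pi.sub_apply, h1 x hx, d_sub]; rfl
      · rw [Pi.sub_apply, rs_of_mem hx.1, sub_self]
  · rintro c ⟨hc, ε', hε', -, h2'⟩ ⟨b, hb, ε, hε, h1, h2⟩
    have e : c = (rs k B (p + 1) c - b) + (c - (rs k B (p + 1) c - b)) := by abel
    rw [e]
    refine Submodule.add_mem_sup ⟨(rs_eqv hgB hc).sub hb, min ε ε', lt_min hε hε',
      fun x hx => ?_, fun x hx => ?_⟩ ⟨0, fun x _ => by simp, ε, hε, fun x hx => ?_,
        fun _ _ => rfl⟩
    · rw [d_sub, Pi.sub_apply, ← h1 x (hx.mono le_rfl (min_le_left _ _))]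
      exact sub_self _
    · rw [Pi.sub_apply, rs_of_mem fun i => hAB (hx.1 i), h2' x (hx.mono le_rfl (min_le_right _ _)),
        h2 x (hx.mono hAB (min_le_left _ _)), sub_self]
    · rw [d_zero, Pi.sub_apply, Pi.sub_apply, rs_of_mem hx.1, h2 x hx]
      simp

theorem exact_zero : qr (Zs g χ X B 0 ⊓ Bs g χ X A 0) (Bs g χ X B 0) = 0 := by
  rw [qr_eq_zero_iff]
  rintro c ⟨-, b, hb, ε, hε, h1, h2⟩
  exact ⟨b, hb, ε, hε, h1, fun x _ => h2 x ⟨fun i => i.elim0, fun i => i.elim0⟩⟩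

theorem les_zero (hAB : A ⊆ B) : hh g χ X B 0 = qr (Zs g χ X B 0) (Bs g χ X A 0) := by
  rw [hh, qr_split _ (Bs_mono hAB), exact_zero, add_zero]

theorem les_left (hAB : A ⊆ B) (hB : B ⊆ X) (hgB : Inv g B) (p : ℕ) : hh g χ X B (p + 1) =
    qr (Zs g χ X B (p + 1)) (Bs g χ X A (p + 1)) +
      qr (Zs g χ B A p) (Zs g χ X A p ⊔ Bs g χ B A p) := by
  rw [hh, qr_split _ (Bs_mono hAB), exact_left hAB hB hgB]

theorem les_mid (hAB : A ⊆ B) (hB : B ⊆ X) (hgB : Inv g B) (p : ℕ) : hh g χ X A p =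
    qr (Zs g χ X A p) (Bs g χ B A p) + qr (Zs g χ X B p) (Bs g χ X A p) := by
  rw [hh, qr_split _ (Bs_restrict hB le_rfl), exact_mid hAB hgB]

theorem les_right (hB : B ⊆ X) (p : ℕ) : hh g χ B A p =
    qr (Zs g χ B A p) (Zs g χ X A p ⊔ Bs g χ B A p) + qr (Zs g χ X A p) (Bs g χ B A p) := by
  rw [hh, qr_split _ (le_sup_right (a := Zs g χ X A p)), exact_right hB]

theorem card_split {a b : Cardinal} {n : ℕ} (h : (n : Cardinal) = a + b) :
    ∃ x y : ℕ, a = x ∧ b = y ∧ n = x + y := by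
  have ha : a < Cardinal.aleph0 :=
    (self_le_add_right a b).trans_lt (h ▸ Cardinal.natCast_lt_aleph0)
  have hb : b < Cardinal.aleph0 :=
    (self_le_add_left b a).trans_lt (h ▸ Cardinal.natCast_lt_aleph0)
  obtain ⟨x, rfl⟩ := Cardinal.lt_aleph0.1 ha
  obtain ⟨y, rfl⟩ := Cardinal.lt_aleph0.1 hb
  exact ⟨x, y, rfl, rfl, by exact_mod_cast h⟩

/-- The Morse relation `m(t) = h(t) + (1 + t) γ(t)` between the sequence `m` and the (finite) ranks
`h` of the pair `(X, A)`. -/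
def Rel (g : E → E) (χ : k) (X A : Set E) (m : ℕ → ℕ) : Prop :=
  ∃ h γ : ℕ → ℕ, (∀ p, hh g χ X A p = h p) ∧ m 0 = h 0 + γ 0 ∧
    ∀ p, m (p + 1) = h (p + 1) + γ (p + 1) + γ p

/-- Additivity of the Morse relation. -/
theorem Rel.triple (hAB : A ⊆ B) (hB : B ⊆ X) (hgB : Inv g B) {m₁ m₂ : ℕ → ℕ}
    (h₁ : Rel g χ B A m₁) (h₂ : Rel g χ X B m₂) : Rel g χ X A (m₁ + m₂) := by
  obtain ⟨c, γ₁, hc, c0, c1⟩ := h₁
  obtain ⟨a, γ₂, ha, a0, a1⟩ := h₂
  have s3 := fun p => card_split ((hc p).symm.trans (les_right (X := X) hB p))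
  choose γ β hγ hβ hc' using s3
  have s1 := fun p => card_split ((ha _).symm.trans (les_left hAB hB hgB p))
  choose α γ' hα hγ' ha' using s1
  have hγγ : ∀ p, γ' p = γ p := fun p => by
    have := (hγ' p).symm.trans (hγ p)
    exact_mod_cast this
  obtain ⟨α', hα0, hαs⟩ : ∃ α' : ℕ → ℕ, α' 0 = a 0 ∧ ∀ p, α' (p + 1) = α p :=
    ⟨fun p => Nat.casesOn p (a 0) α, rfl, fun _ => rfl⟩
  refine ⟨fun p => β p + α' p, fun p => γ p + γ₁ p + γ₂ p, fun p => ?_, ?_, fun p => ?_⟩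
  · rw [les_mid hAB hB hgB, hβ, Nat.cast_add]
    cases p with
    | zero => rw [← les_zero hAB, ha, hα0]
    | succ p => rw [hα, hαs]
  · have := hc' 0
    simp only [Pi.add_apply]
    omega
  · have h1 := hc' (p + 1)
    have h2 := ha' p
    have h3 := c1 p
    have h4 := a1 p
    have h5 := hγγ p
    have h6 := hαs p
    simp only [Pi.add_apply]
    omega

theorem Rel.of_eq {m : ℕ → ℕ} (h : ∀ p, hh g χ X A p = m p) : Rel g χ X A m :=
  ⟨m, fun _ => 0, h, rfl, fun _ => rfl⟩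

end Vale.Agent.N265
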