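import Vale.Agent.P265.H423.Transfer
import Vale.Agent.P265.H266.Sphere
import Vale.Agent.P265.H336.Local

/-!
# The invariant class of degree two of the surface of genus two
-/

open Set Matrix Topology Complex
open scoped ComplexConjugate

noncomputable section

namespace Vale.Agent.N265

open Vale.Agent.P265.AS Vale.Agent.P265.Top

/-- The principal `n`-th root. -/
def rt (n : ℕ) (w : ℂ) : ℂ := w ^ ((n : ℂ)⁻¹)

theorem rt_pow {n : ℕ} (hn : n ≠ 0) (w : ℂ) : rt n w ^ n = w := cpow_nat_inv_pow w hn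

theorem continuousOn_rt {n : ℕ} (hn : n ≠ 0) : ContinuousOn (rt n) {w | 0 ≤ w.im} := by
  intro w hw
  by_cases h : 0 ≤ w.re ∨ w.im ≠ 0
  · refine (continuousAt_cpow_const_of_re_pos h ?_).continuousWithinAt
    rw [← ofReal_natCast, ← ofReal_inv, ofReal_re]
    exact inv_pos.2 (by exact_mod_cast Nat.pos_of_ne_zero hn)
  · rw [not_or, not_le, not_not] at h
    have hw0 : w ≠ 0 := by
      rintro rfl
      simp at h
    have h1 : ContinuousWithinAt (fun z => exp (log z * (n : ℂ)⁻¹)) {w | 0 ≤ w.im} w :=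
      ((continuousWithinAt_log_of_re_neg_of_im_zero h.1 h.2).mul continuousWithinAt_const).cexp
    refine h1.congr_of_eventuallyEq ?_ (cpow_def_of_ne_zero hw0 _)
    filter_upwards [mem_nhdsWithin_of_mem_nhds (isOpen_ne.mem_nhds hw0)] with z hz
    exact cpow_def_of_ne_zero hz _

theorem rt_of_nonneg (n : ℕ) {x : ℝ} (hx : 0 ≤ x) : rt n x = ((x ^ ((n : ℝ)⁻¹) : ℝ) : ℂ) := by
  rw [rt, ofReal_cpow hx]
  push_cast
  rfl

theorem rt_two_of_nonpos {x : ℝ} (hx : x ≤ 0) : conj (rt 2 x) = -rt 2 x := by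
  have h := rt_pow two_ne_zero (x : ℂ)
  have h1 := congrArg re h
  have h2 := congrArg im h
  simp only [pow_two, mul_re, mul_im, ofReal_re, ofReal_im] at h1 h2
  have h3 : (rt 2 x).re = 0 := by
    by_contra h4
    have h5 : (rt 2 x).im = 0 := by
      have : (rt 2 x).re * (rt 2 x).im = 0 := by linarith
      exact (mul_eq_zero.1 this).resolve_left h4
    rw [h5] at h1
    nlinarith [mul_self_pos.2 h4]
  exact Complex.ext (by simp [h3]) (by simp)

theorem rt_three_of_nonpos {x : ℝ} (hx : x ≤ 0) : rt 3 x = om * conj (rt 3 x) := by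
  have h1 : exp (Real.pi * I * ((3 : ℕ) : ℂ)⁻¹) = ze := by
    rw [show (Real.pi * I * ((3 : ℕ) : ℂ)⁻¹ : ℂ) = ((Real.pi / 3 : ℝ) : ℂ) * I by push_cast; ring]
    refine Complex.ext ?_ ?_
    · rw [exp_ofReal_mul_I_re, Real.cos_pi_div_three]; rfl
    · rw [exp_ofReal_mul_I_im, Real.sin_pi_div_three]; rfl
  have h2 : rt 3 x = rt 3 ((-x : ℝ) : ℂ) * ze := by
    rw [rt, ofReal_cpow_of_nonpos hx, h1, rt, ofReal_neg]
  have h3 : ze * conj ze = 1 := by
    rw [mul_conj, normSq_eq_norm_sq, norm_ze]; simp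
  rw [h2, rt_of_nonneg 3 (neg_nonneg.2 hx), map_mul, conj_ofReal, ← ze_sq]
  linear_combination (-((((-x) ^ (((3 : ℕ) : ℝ)⁻¹) : ℝ) : ℂ) * ze)) * h3

/-- The coordinate `x₁² - x₂³` over a point of the unit sphere. -/
def DD (v : Unit × (ℝ × ℂ)) : ℂ := ⟨2 * v.2.2.re, 2 * v.2.1⟩

/-- A section of the branched covering, continuous over the upper hemisphere. -/
def sp (v : Unit × (ℝ × ℂ)) : ℂ × ℂ × ℝ :=
  (rt 2 ((1 + DD v) / 2), conj (rt 3 ((1 - conj (DD v)) / 2)), 2 * v.2.2.im)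

/-- The reflection of the sphere. -/
def fl (v : Unit × (ℝ × ℂ)) : Unit × (ℝ × ℂ) := (v.1, (-v.2.1, v.2.2))

/-- A section of the branched covering, continuous over the lower hemisphere. -/
def sm (v : Unit × (ℝ × ℂ)) : ℂ × ℂ × ℝ := cS (sp (fl v))

/-- The branched covering. -/
def qS (p : ℂ × ℂ × ℝ) : Unit × (ℝ × ℂ) :=
  ((), ((p.1 ^ 2 - p.2.1 ^ 3).im / 2, ⟨(p.1 ^ 2 - p.2.1 ^ 3).re / 2, p.2.2 / 2⟩))

theorem sp_sq (v : Unit × (ℝ × ℂ)) : (sp v).1 ^ 2 = (1 + DD v) / 2 := rt_pow two_ne_zero _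

theorem sp_cube (v : Unit × (ℝ × ℂ)) : (sp v).2.1 ^ 3 = (1 - DD v) / 2 := by
  change conj (rt 3 _) ^ 3 = _
  rw [← map_pow, rt_pow three_ne_zero]
  simp [map_ofNat]

theorem sp_sub (v : Unit × (ℝ × ℂ)) : (sp v).1 ^ 2 - (sp v).2.1 ^ 3 = DD v := by
  rw [sp_sq, sp_cube]; ring

theorem sp_mem {v : Unit × (ℝ × ℂ)} (hv : v ∈ sph univ) : sp v ∈ Sig := by
  refine ⟨by rw [sp_sq, sp_cube]; ring, ?_⟩
  have h := hv.2
  rw [← normSq_eq_norm_sq, normSq_apply] at h
  rw [sp_sub, normSq_apply]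
  simp only [DD, sp]
  linarith

theorem fl_mem {v : Unit × (ℝ × ℂ)} (hv : v ∈ sph univ) : fl v ∈ sph univ :=
  ⟨mem_univ _, by simpa [fl] using hv.2⟩

theorem sm_mem {v : Unit × (ℝ × ℂ)} (hv : v ∈ sph univ) : sm v ∈ Sig := cS_mem (sp_mem (fl_mem hv))

theorem qS_sp (v : Unit × (ℝ × ℂ)) : qS (sp v) = v := by
  unfold qS
  rw [sp_sub]
  refine Prod.ext rfl (Prod.ext ?_ (Complex.ext ?_ ?_)) <;> simp [DD, sp]

theorem qS_sm (v : Unit × (ℝ × ℂ)) : qS (sm v) = v := by
  have h : (sm v).1 ^ 2 - (sm v).2.1 ^ 3 = conj (DD (fl v)) := by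
    rw [← sp_sub, map_sub, map_pow, map_pow]; rfl
  unfold qS
  rw [h]
  refine Prod.ext rfl (Prod.ext ?_ (Complex.ext ?_ ?_)) <;> simp [DD, sp, sm, cS, fl]

theorem isMapP_qS : IsMapP gSi (Prod.map id id) Sig ∅ (sph univ) ∅ qS := by
  refine ⟨fun p hp => ⟨mem_univ _, ?_⟩, fun _ h => h.elim, fun p _ => ?_,
    uc_of_compact' isCompact_Sig (Continuous.continuousOn ?_)⟩
  · have h := hp.2
    rw [normSq_apply] at h
    rw [← normSq_eq_norm_sq, normSq_apply]
    simp only [qS]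
    linarith
  · have h : (om ^ 2 * p.2.1) ^ 3 = p.2.1 ^ 3 := by
      rw [mul_pow, show (om ^ 2) ^ 3 = (om ^ 3) ^ 2 by ring, om_cube]; ring
    simp only [qS, gSi, h, neg_sq, Prod.map, id]
  · refine continuous_const.prodMk (Continuous.prodMk (by fun_prop) ?_)
    exact Complex.equivRealProdCLM.symm.continuous.comp
      (f := fun p : ℂ × ℂ × ℝ => ((p.1 ^ 2 - p.2.1 ^ 3).re / 2, p.2.2 / 2)) (by fun_prop)

theorem continuous_DD : Continuous DD :=
  Complex.equivRealProdCLM.symm.continuous.comp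
    (f := fun v : Unit × (ℝ × ℂ) => (2 * v.2.2.re, 2 * v.2.1)) (by fun_prop)

theorem continuousOn_sp : ContinuousOn sp {v | 0 ≤ v.2.1} := by
  have h := continuous_DD
  refine ContinuousOn.prodMk ?_ (ContinuousOn.prodMk ?_ (by fun_prop))
  · refine (continuousOn_rt two_ne_zero).comp (f := fun v => (1 + DD v) / 2) (by fun_prop)
      fun v hv => ?_
    have h1 : 0 ≤ v.2.1 := hv
    simp only [mem_ofPred_eq, div_ofNat_im, add_im, one_im, DD]
    linarith
  · refine continuous_conj.comp_continuousOn ((continuousOn_rt three_ne_zero).comp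
      (f := fun v => (1 - conj (DD v)) / 2) (by fun_prop) fun v hv => ?_)
    have h1 : 0 ≤ v.2.1 := hv
    simp only [mem_ofPred_eq, div_ofNat_im, sub_im, one_im, conj_im, DD]
    linarith

theorem isCompact_hemi (S : Set ℝ) (hS : IsClosed S) :
    IsCompact {v : Unit × (ℝ × ℂ) | v ∈ sph univ ∧ v.2.1 ∈ S} := by
  have hcl : IsClosed {v : Unit × (ℝ × ℂ) | v ∈ sph univ ∧ v.2.1 ∈ S} := by
    refine IsClosed.inter ?_ (hS.preimage (f := fun v : Unit × (ℝ × ℂ) => v.2.1) (by fun_prop))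
    exact isClosed_univ.inter (isClosed_eq (f := fun v : Unit × (ℝ × ℂ) => v.2.1 ^ 2 + ‖v.2.2‖ ^ 2)
      (by fun_prop) continuous_const)
  refine (isCompact_univ.prod (isCompact_closedBall (0 : ℝ × ℂ) 1)).of_isClosed_subset hcl
    fun v hv => ⟨mem_univ _, ?_⟩
  have h := hv.1.2
  rw [mem_closedBall_zero_iff]
  refine max_le ?_ ?_
  · rw [Real.norm_eq_abs]
    exact abs_le_one_iff_mul_self_le_one.2 (by nlinarith [sq_nonneg ‖v.2.2‖])
  · nlinarith [norm_nonneg v.2.2, sq_nonneg v.2.1]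

/-- On each of the three types of arcs of the equator the two sections differ by a fixed deck
transformation. -/
theorem sm_eq (a : Fin 3) : ∃ i : ℕ, ∀ c : ℂ, (if a = 0 then 1 / 2 ≤ c.re else if a = 1 then
    c.re ≤ -(1 / 2) else |c.re| ≤ 1 / 2) → sm ((), (0, c)) = gSi^[i] (sp ((), (0, c))) := by
  have e0 : ∀ c : ℂ, fl ((), (0, c)) = ((), (0, c)) := fun c => by simp [fl]
  have e1 : ∀ c : ℂ, (1 + DD ((), (0, c))) / 2 = ((1 / 2 + c.re : ℝ) : ℂ) := fun c =>
    Complex.ext (by simp [DD]; ring) (by simp [DD])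
  have e2 : ∀ c : ℂ, (1 - conj (DD ((), (0, c)))) / 2 = ((1 / 2 - c.re : ℝ) : ℂ) := fun c =>
    Complex.ext (by simp [DD]; ring) (by simp [DD])
  have o4 : om ^ 2 * om ^ 2 = om := by linear_combination om * om_cube
  have o6 : om ^ 2 * om = 1 := by linear_combination om_cube
  fin_cases a
  · refine ⟨2, fun c hc => ?_⟩
    have hc' : 1 / 2 ≤ c.re := hc
    simp only [sm, e0, cS, sp, e1, e2, Function.iterate_succ, Function.iterate_zero,
      Function.comp_apply, id, gSi, neg_neg, conj_conj, ← mul_assoc, o4]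
    rw [← rt_three_of_nonpos (by linarith), rt_of_nonneg 2 (by linarith), conj_ofReal]
  · refine ⟨3, fun c hc => ?_⟩
    have hc' : c.re ≤ -(1 / 2) := hc
    simp only [sm, e0, cS, sp, e1, e2, Function.iterate_succ, Function.iterate_zero,
      Function.comp_apply, id, gSi, neg_neg, conj_conj, ← mul_assoc, o4]
    rw [o6, one_mul, rt_two_of_nonpos (by linarith), rt_of_nonneg 3 (by linarith),
      conj_ofReal]
  · refine ⟨0, fun c hc => ?_⟩
    have hc' : |c.re| ≤ 1 / 2 := hc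
    rw [abs_le] at hc'
    simp only [sm, e0, cS, sp, e1, e2, Function.iterate_zero, id, conj_conj]
    rw [rt_of_nonneg 2 (by linarith [hc'.1]), rt_of_nonneg 3 (by linarith [hc'.2]), conj_ofReal,
      conj_ofReal]

theorem cos_arc {b : ℕ} (hb : b < 6) : ∃ a : Fin 3, ∀ t : ℝ, b ≤ t → t ≤ b + 1 →
    (if a = 0 then 1 / 2 ≤ Real.cos (Real.pi / 3 * t) else if a = 1 then
      Real.cos (Real.pi / 3 * t) ≤ -(1 / 2) else |Real.cos (Real.pi / 3 * t)| ≤ 1 / 2) := by
  have hπ := Real.pi_pos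
  have mono : ∀ s t : ℝ, 0 ≤ s → s ≤ t → t ≤ 3 →
      Real.cos (Real.pi / 3 * t) ≤ Real.cos (Real.pi / 3 * s) := fun s t h0 h1 h2 =>
    Real.cos_le_cos_of_nonneg_of_le_pi (by positivity) (by nlinarith) (by nlinarith)
  have c1 : Real.cos (Real.pi / 3 * 1) = 1 / 2 := by rw [mul_one, Real.cos_pi_div_three]
  have c2 : Real.cos (Real.pi / 3 * 2) = -(1 / 2) := by
    rw [show Real.pi / 3 * 2 = Real.pi - Real.pi / 3 by ring, Real.cos_pi_sub,
      Real.cos_pi_div_three]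
  have sy : ∀ t : ℝ, Real.cos (Real.pi / 3 * t) = Real.cos (Real.pi / 3 * (6 - t)) := fun t => by
    rw [show Real.pi / 3 * (6 - t) = 2 * Real.pi - Real.pi / 3 * t by ring, Real.cos_two_pi_sub]
  interval_cases b
  · refine ⟨0, fun t h0 h1 => ?_⟩
    push_cast at h0 h1
    exact c1 ▸ mono t 1 h0 (by linarith) (by norm_num)
  · refine ⟨2, fun t h0 h1 => ?_⟩
    push_cast at h0 h1
    exact abs_le.2 ⟨c2 ▸ mono t 2 (by linarith) (by linarith) (by norm_num),
      c1 ▸ mono 1 t (by norm_num) h0 (by linarith)⟩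
  · refine ⟨1, fun t h0 h1 => ?_⟩
    push_cast at h0 h1
    exact c2 ▸ mono 2 t (by norm_num) h0 (by linarith)
  · refine ⟨1, fun t h0 h1 => ?_⟩
    push_cast at h0 h1
    rw [sy]
    exact c2 ▸ mono 2 _ (by norm_num) (by linarith) (by linarith)
  · refine ⟨2, fun t h0 h1 => ?_⟩
    push_cast at h0 h1
    rw [sy]
    exact abs_le.2 ⟨c2 ▸ mono _ 2 (by linarith) (by linarith) (by norm_num),
      c1 ▸ mono 1 _ (by norm_num) (by linarith) (by linarith)⟩
  · refine ⟨0, fun t h0 h1 => ?_⟩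
    push_cast at h0 h1
    rw [sy]
    exact c1 ▸ mono _ 1 (by linarith) (by linarith) (by norm_num)

/-- Two consecutive sample points of the equator lie on one arc. -/
theorem sm_eq_cc {N j : ℕ} (hN : 6 ∣ N) (hj : j < N) : ∃ i : ℕ, ∀ c, c = cc N j ∨ c = cc N (j + 1) →
    sm ((), (0, c)) = gSi^[i] (sp ((), (0, c))) := by
  obtain ⟨m, rfl⟩ := hN
  have hm : 0 < m := by omega
  have hm' : (0 : ℝ) < m := by exact_mod_cast hm
  obtain ⟨a, ha⟩ := cos_arc (b := j / m) ((Nat.div_lt_iff_lt_mul hm).2 hj)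
  obtain ⟨i, hi⟩ := sm_eq a
  have ang : ∀ l : ℕ, (cc (6 * m) l).re = Real.cos (Real.pi / 3 * (l / m)) := fun l => by
    rw [cc_re]; congr 1; push_cast; field_simp; ring
  have h1 : ((j / m : ℕ) : ℝ) * m ≤ j := by exact_mod_cast Nat.div_mul_le_self j m
  have h2 : (j : ℝ) + 1 ≤ (((j / m : ℕ) : ℝ) + 1) * m := by
    have := Nat.lt_succ_iff.1 (Nat.lt_succ_of_le (Nat.succ_le_of_lt (Nat.lt_div_mul_add hm (a := j))))
    have h3 : j + 1 ≤ (j / m + 1) * m := by rw [add_mul, one_mul]; exact this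
    exact_mod_cast h3
  refine ⟨i, fun c hc => hi c ?_⟩
  rcases hc with rfl | rfl
  · rw [ang]
    exact ha _ (by rw [le_div_iff₀ hm']; exact h1) (by rw [div_le_iff₀ hm']; linarith)
  · rw [ang]
    push_cast
    exact ha _ (by rw [le_div_iff₀ hm']; linarith) (by rw [div_le_iff₀ hm']; exact h2)

variable {k : Type} [Field k]

theorem sum_prism_d {E E' : Type} (f : ℕ → E → E') (m : ℕ) {n : ℕ} (c : (Fin (n + 1) → E') → k) :
    ∑ i ∈ Finset.range m, prism (f i) (f (i + 1)) (d c) =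
      pb (f m) c - pb (f 0) c - d (∑ i ∈ Finset.range m, prism (f i) (f (i + 1)) c) := by
  induction m with
  | zero => rw [Finset.sum_range_zero, Finset.sum_range_zero, d_zero]; simp
  | succ m ih =>
    rw [Finset.sum_range_succ, Finset.sum_range_succ, ih, d_add]
    funext x
    have h := d_prism (f m) (f (m + 1)) c x
    simp only [Pi.add_apply, Pi.sub_apply, pb_apply]
    linear_combination h

theorem lat_height {S i : ℕ} (hS : 0 < S) (hi : i ≤ 2 * S) (p : Unit × ℂ) :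
    (i ≤ S → (lat (2 * S) i p).2.1 ≤ 0) ∧ (S ≤ i → 0 ≤ (lat (2 * S) i p).2.1) := by
  have hπ := Real.pi_pos
  have hS' : (0 : ℝ) < S := by exact_mod_cast hS
  have h0 : (i : ℝ) / ((2 * S : ℕ) : ℝ) ≤ 1 := by
    rw [div_le_one (by positivity)]
    exact_mod_cast hi
  have h2 : 0 ≤ (i : ℝ) / ((2 * S : ℕ) : ℝ) := by positivity
  constructor
  · intro hc
    have h1 : (i : ℝ) / ((2 * S : ℕ) : ℝ) ≤ 1 / 2 := by
      rw [div_le_iff₀ (by positivity)]
      have : (i : ℝ) ≤ S := by exact_mod_cast hc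
      push_cast
      linarith
    exact Real.sin_nonpos_of_nonpos_of_neg_pi_le (by nlinarith) (by nlinarith)
  · intro hc
    have h1 : 1 / 2 ≤ (i : ℝ) / ((2 * S : ℕ) : ℝ) := by
      rw [le_div_iff₀ (by positivity)]
      have : (S : ℝ) ≤ i := by exact_mod_cast hc
      push_cast
      linarith
    exact Real.sin_nonneg_of_nonneg_of_le_pi (by nlinarith) (by nlinarith)

theorem lat_mid {S : ℕ} (hS : 0 < S) (p : Unit × ℂ) : lat (2 * S) S p = ((), (0, p.2)) := by
  have hS' : (0 : ℝ) < S := by exact_mod_cast hS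
  have h : -(Real.pi / 2) + Real.pi * ((S : ℝ) / ((2 * S : ℕ) : ℝ)) = 0 := by
    push_cast; field_simp; ring
  unfold lat
  rw [h]
  simp

theorem inv_Sig : Inv gSi Sig := by
  intro p
  have h : (om ^ 2 * p.2.1) ^ 3 = p.2.1 ^ 3 := by
    rw [mul_pow, show (om ^ 2) ^ 3 = (om ^ 3) ^ 2 by ring, om_cube]; ring
  simp only [Sig, gSi, mem_ofPred_eq, h, neg_sq]

/-- The fundamental class of the surface is invariant and nonzero. -/
theorem one_le_hh_Sig_two {r : ℕ} (hr : (r : k) = 0) (hr0 : r ≠ 0) :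
    1 ≤ hh gSi (1 : k) Sig ∅ 2 := by
  rw [Cardinal.one_le_iff_ne_zero]
  intro h0
  have hone : (fun _ => (1 : k)) ∈ Zs id (1 : k) (univ : Set Unit) ∅ 0 :=
    ⟨fun x _ => by simp, 1, one_pos, fun x _ => by
      rw [d_succ_apply, d_zero_apply]; simp, fun x hx => absurd (hx.1 0) (Set.notMem_empty _)⟩
  set c₀ : (Fin 3 → Unit × (ℝ × ℂ)) → k := sig k Unit (n := 0) fun _ => 1 with hc₀
  obtain ⟨b, hb, ε, hε, h1, -⟩ := hh_eq_zero_iff.1 h0
    (pb_mem_Zs isMapP_qS (empty_subset _) (sig_mem_Zs hone))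
  obtain ⟨δ₁, hδ₁, u1⟩ := uc_of_compact' (f := sp) (isCompact_hemi _ (isClosed_Ici (a := 0)))
    (continuousOn_sp.mono fun v hv => hv.2) ε hε
  obtain ⟨δ₂, hδ₂, u2⟩ := uc_of_compact' (f := sm) (isCompact_hemi _ (isClosed_Iic (a := 0)))
    (by
      have hcS : Continuous cS := (Isometry.of_dist_eq dist_cS).continuous
      refine hcS.comp_continuousOn (continuousOn_sp.comp (f := fl) (by unfold fl; fun_prop)
        fun v hv => ?_)
      exact neg_nonneg.2 (mem_Iic.1 hv.2)) ε hε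
  have hδ : 0 < min δ₁ δ₂ / 2 := half_pos (lt_min hδ₁ hδ₂)
  obtain ⟨M, hM, h6, hrM, hlt⟩ := exists_N (m := 6) (by norm_num) hr0 hδ
  obtain ⟨S, hS, hS'⟩ := exists_R hδ
  have hS0 : 0 < S := by omega
  have hN : 4 * M ≠ 0 := by omega
  have hR : 2 * S ≠ 0 := by omega
  have hNk : ((4 * M : ℕ) : k) = 0 := by
    obtain ⟨t, ht⟩ := hrM
    rw [ht, Nat.cast_mul, hr, zero_mul]
  let x : Fin 1 → Unit := fun _ => ()
  have hx : Sm (univ : Set Unit) (min δ₁ δ₂ / 2) x := ⟨fun _ => trivial, fun _ _ => by simpa using hδ⟩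
  have e0 := sphI_sig (k := k) (E := Unit) (n := 0) hM hS (fun _ => 1) x
  have e1 : circI (4 * M) (latI (2 * S) c₀) x = circI (4 * M)
      (∑ i ∈ Finset.range S, prism (lat (2 * S) i) (lat (2 * S) (i + 1)) (d (pb sm b)) +
        ∑ i ∈ Finset.range S, prism (lat (2 * S) (S + i)) (lat (2 * S) (S + (i + 1)))
          (d (pb sp b))) x := by
    refine circI_congr fun j _ y hy => ?_
    have hy' := hx.circ (norm_cc _ _) (norm_cc _ _) ((dist_cc _ j).trans_lt hlt) hy
    rw [latI, two_mul S, Finset.sum_range_add, ← two_mul S, Pi.add_apply, Pi.add_apply,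
      Finset.sum_apply, Finset.sum_apply, Finset.sum_apply, Finset.sum_apply]
    congr 1
    · refine Finset.sum_congr rfl fun i hi => ?_
      rw [Finset.mem_range] at hi
      rw [← sub_eq_zero, ← Pi.sub_apply, ← prism_sub]
      refine prism_eq_zero _ _ fun z hz => ?_
      have hz1 := hy'.lat hR i hz
      have hz2 : ∀ l, z l ∈ {v : Unit × (ℝ × ℂ) | v ∈ sph univ ∧ v.2.1 ∈ Iic 0} := fun l => by
        refine ⟨hz1.1 l, ?_⟩
        obtain ⟨l', h | h⟩ := hz l <;> rw [h]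
        · exact (lat_height hS0 (by omega) _).1 (by omega)
        · exact (lat_height hS0 (by omega) _).1 (by omega)
      rw [Pi.sub_apply, d_pb, pb_apply, ← h1 (sm ∘ z) ⟨fun l => sm_mem (hz1.1 l), fun l l' =>
        u2 _ (hz2 l) _ (hz2 l') ((hz1.2 l l').trans_le (by linarith [min_le_right δ₁ δ₂]))⟩,
        pb_apply, show qS ∘ sm ∘ z = z from funext fun l => qS_sm _, sub_self]
    · refine Finset.sum_congr rfl fun i hi => ?_
      rw [Finset.mem_range] at hi
      rw [← add_assoc, ← sub_eq_zero, ← Pi.sub_apply, ← prism_sub]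
      refine prism_eq_zero _ _ fun z hz => ?_
      have hz1 := hy'.lat hR (S + i) hz
      have hz2 : ∀ l, z l ∈ {v : Unit × (ℝ × ℂ) | v ∈ sph univ ∧ v.2.1 ∈ Ici 0} := fun l => by
        refine ⟨hz1.1 l, ?_⟩
        obtain ⟨l', h | h⟩ := hz l <;> rw [h]
        · exact (lat_height hS0 (by omega) _).2 (by omega)
        · exact (lat_height hS0 (by omega) _).2 (by omega)
      rw [Pi.sub_apply, d_pb, pb_apply, ← h1 (sp ∘ z) ⟨fun l => sp_mem (hz1.1 l), fun l l' =>
        u1 _ (hz2 l) _ (hz2 l') ((hz1.2 l l').trans_le (by linarith [min_le_left δ₁ δ₂]))⟩,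
        pb_apply, show qS ∘ sp ∘ z = z from funext fun l => qS_sp _, sub_self]
  have pole : ∀ (f : Unit × ℂ → Unit × (ℝ × ℂ)) (v : ℝ × ℂ) (c : (Fin 2 → Unit × (ℝ × ℂ)) → k),
      (∀ p, f p = (p.1, v)) → circI (4 * M) (pb f c) x = 0 := by
    intro f v c hf
    rw [← circI_pb hNk (pb (fun a : Unit => (a, v)) c) x]
    congr 1
    funext y
    simp only [pb_apply]
    congr 1
    funext i
    exact hf _
  have dz : ∀ c : (Fin 1 → Unit × ℂ) → k, circI (4 * M) (d c) x = 0 := by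
    intro c
    rw [circI_d hN, d_zero_apply, circI_zero, neg_zero]
  have eq : circI (4 * M) (pb (lat (2 * S) S) (pb sm b)) x =
      circI (4 * M) (pb (lat (2 * S) S) (pb sp b)) x := by
    refine circI_congr fun j hj y hy => ?_
    obtain ⟨i, hi⟩ := sm_eq_cc h6 hj
    have hy' := hx.circ (norm_cc _ _) (norm_cc _ _) ((dist_cc _ j).trans_lt hlt) hy
    have e2 : sm ∘ lat (2 * S) S ∘ y = gSi^[i] ∘ sp ∘ lat (2 * S) S ∘ y := by
      funext l
      simp only [Function.comp_apply, lat_mid hS0]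
      refine hi _ ?_
      obtain ⟨l', h | h⟩ := hy l <;> rw [h]
      · exact Or.inl rfl
      · exact Or.inr rfl
    simp only [pb_apply]
    rw [e2, hb.iterate inv_Sig i (x := sp ∘ lat (2 * S) S ∘ y)
      fun l => sp_mem (lat_mem_sph _ _ (hy'.1 l)), one_pow, one_mul]
  rw [e1, sum_prism_d, sum_prism_d (fun i => lat (2 * S) (S + i)), circI_add, circI_sub, circI_sub,
    circI_sub, circI_sub, dz, dz, eq, add_zero S, pole _ _ _ (lat_zero _), ← two_mul S,
    pole _ _ _ (lat_self hR)] at e0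
  simp at e0

end Vale.Agent.N265
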