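import Vale.Agent.N265.Assembly
import Vale.Agent.N265.Top2
import Vale.Agent.P265W27.Main

/-!
# The examples split off a circle; the lower bound for their stable Morse numbers
-/

open Set Manifold Module
open scoped ContDiff Topology

noncomputable section

namespace Vale.Agent.N265

open Vale.Agent.P265 Vale.Agent.P265.LS Vale.Agent.P265.Loc Vale.Agent.P265.AS
  Vale.Agent.P265.Top Vale.Agent.P265.H363 Vale.Agent.P265.H264

/-- Lower bounds for the ranks in the degrees `2 i + s`. -/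
def LoG {N : Type} [MetricSpace N] (g : N → N) {k : Type} [Field k] (χ : k) (s a m : ℕ) : Prop :=
  ∀ i, ((a * m.choose i : ℕ) : Cardinal) ≤ hh g χ univ ∅ (2 * i + s)

theorem LoG.step {N : Type} [MetricSpace N] {g : N → N} {k : Type} [Field k] {χ : k} {r : ℕ}
    (hr : (r : k) = 0) (hr0 : r ≠ 0) {s a m : ℕ} (H : LoG g χ s a m) :
    LoG (Prod.map g (id : S → S)) χ s a (m + 1) := by
  intro i
  cases i with
  | zero =>
    have h1 := (H 0).trans ((hh_sph_ge g χ univ _).trans (transfer_sph g χ _))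
    simpa using h1
  | succ i =>
    have h1 := (add_le_add (H (i + 1)) (H i))
    have e : 2 * (i + 1) + s = 2 * i + s + 2 := by ring
    rw [e] at h1 ⊢
    refine le_trans ?_ (h1.trans ((hh_sph_add g χ univ hr hr0 _).trans (transfer_sph g χ _)))
    rw [← Nat.cast_add, Nat.choose_succ_succ]
    apply le_of_eq
    congr 1
    ring

theorem Split.step {N N' Y : Type} [TopologicalSpace N] [TopologicalSpace N'] [TopologicalSpace Y]
    {g : N → N} {g' : N' → N'} (h : Split g g') :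
    Split (Prod.map g (id : Y → Y)) (Prod.map g' (id : Y → Y)) := by
  obtain ⟨Φ, hΦ⟩ := h
  exact ⟨{
    toFun := fun x => (((Φ x.1).1, x.2), (Φ x.1).2)
    invFun := fun y => (Φ.symm (y.1.1, y.2), y.1.2)
    left_inv := fun x => by simp
    right_inv := fun y => by simp
    continuous_toFun := by fun_prop
    continuous_invFun := by fun_prop }, fun x => by simp [Prod.map, hΦ]⟩

theorem hh_le_subtype {E k : Type} [MetricSpace E] [Field k] {g : E → E} {X : Set E}
    (hX : X.Nonempty) (hg : MapsTo g X X) (χ : k) (j : ℕ) :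
    hh g χ X ∅ j ≤ hh (hg.restrict g X X) χ univ ∅ j := by
  classical
  obtain ⟨x₀, hx₀⟩ := hX
  let φ : E → X := fun x => if h : x ∈ X then ⟨x, h⟩ else ⟨x₀, hx₀⟩
  have hφ : ∀ x ∈ X, (φ x : E) = x := fun x hx => by simp only [φ, dif_pos hx]
  refine hh_le_of_section (φ := φ) (ψ := Subtype.val) ⟨fun _ _ => mem_univ _, fun _ h => h,
    fun x hx => Subtype.ext ?_, fun ε hε => ⟨ε, hε, fun x hx y hy h => ?_⟩⟩
    ⟨fun x _ => x.2, fun _ h => h, fun _ _ => rfl, fun ε hε => ⟨ε, hε, fun _ _ _ _ h => h⟩⟩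
    (empty_subset _) (empty_subset _) hφ χ j
  · rw [hφ _ (hg hx), MapsTo.val_restrict_apply, hφ _ hx]
  · rwa [Subtype.dist_eq, hφ _ hx, hφ _ hy]

section Base

theorem mapsTo_rot : MapsTo (rot gSi ze) (circ Sig) (circ Sig) := fun p hp =>
  ⟨gSi_mem hp.1, by
    change ‖ze * p.2‖ = 1
    rw [norm_mul, norm_ze, hp.2, one_mul]⟩

/-- The deck transformation of `Sig × S¹`. -/
def g₀ : circ Sig → circ Sig := mapsTo_rot.restrict _ _ _

instance : CompactSpace (circ Sig) := by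
  refine isCompact_iff_compactSpace.1 ?_
  have h : circ Sig = Sig ×ˢ Metric.sphere (0 : ℂ) 1 := by
    ext p; simp [circ]
  rw [h]
  exact isCompact_Sig.prod (isCompact_sphere _ _)

theorem toN_ofN (x : NN) : toN hM coe_hM ⟨ofN hM x, ofN_mem hM coe_hM x⟩ = x := by
  obtain ⟨-, -, -, -, hre⟩ := (Dis.mem_iff _).1 (Dis.RL.G_ι x.1.1)
  have hτ : (x.1.2 : ℂ) ≠ 0 := Circle.coe_ne_zero _
  refine ext_N hM ?_ rfl
  rw [ι_toN]
  simp only [toE, ofN, qB_vB hre, Circle.coe_inv]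
  rw [← mul_assoc, ← mul_pow, mul_inv_cancel₀ hτ, ← mul_assoc, ← mul_pow, mul_inv_cancel₀ hτ]
  simp

theorem ofN_gN (x : NN) : ofN hM (gN x) = gY (ofN hM x) := by
  have h1 : toN hM coe_hM ⟨gY (ofN hM x), gY_mem (ofN_mem hM coe_hM x)⟩ = gN x := by
    refine ext_N hM ?_ rfl
    rw [ι_toN, toE_gY]
    exact congrArg (fun y : NN => Dis.RL.ι y.1.1) (toN_ofN x)
  rw [← h1, ofN_toN]

theorem split_base : Split cover.g (Prod.map g₀ (id : S → S)) := by
  have hc := continuous_ofN hM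
  refine ⟨{
    toFun := fun x => ((⟨(ofN hM x).1.1, (ofN_mem hM coe_hM x).1.1⟩,
      RS.pt (ofN hM x).2 (q_eq_zero.2 (ofN_mem hM coe_hM x).2)),
      toC (ofN hM x).1.2 (ofN_mem hM coe_hM x).1.2)
    invFun := fun y => toN hM coe_hM ⟨((y.1.1.1, y.2), RS.ι y.1.2),
      ⟨y.1.1.2, Circle.norm_coe _⟩, q_eq_zero.1 (RS.G_ι y.1.2)⟩
    left_inv := fun x => toN_ofN x
    right_inv := fun y => ?_
    continuous_toFun := ?_
    continuous_invFun := ?_ }, fun x => ?_⟩
  · refine Prod.ext (Prod.ext (Subtype.ext ?_) (RS.ext ?_)) (Circle.ext ?_)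
    · simp only [ofN_toN]
    · simp only [RegLevel.ι_pt, ofN_toN]
    · simp only [coe_toC, ofN_toN]
  · refine Continuous.prodMk (Continuous.prodMk (Continuous.subtype_mk hc.fst.fst _) ?_)
      (Continuous.subtype_mk hc.fst.snd _)
    exact RS.isEmbedding_ι.continuous_iff.2 hc.snd
  · refine (continuous_toN hM coe_hM).comp (Continuous.subtype_mk ?_ _)
    exact (Continuous.prodMk (by fun_prop) (continuous_cC.comp continuous_snd)).prodMk
      (RS.continuous_ι.comp (by fun_prop))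
  · have h := ofN_gN x
    refine Prod.ext (Prod.ext (Subtype.ext ?_) (RS.ext ?_)) (Circle.ext ?_)
    · exact congrArg (fun p => p.1.1) h
    · exact congrArg (fun p => p.2) h
    · exact (congrArg (fun p => p.1.2) h).trans (one_mul _)

attribute [local instance] Vale.Agent.P265.Top.fact7

theorem lo_base : LoG g₀ (1 : ZMod 7) 0 1 1 ∧ LoG g₀ (1 : ZMod 7) 1 1 1 ∧
    LoG g₀ (3 : ZMod 7) 1 2 0 ∧ LoG g₀ (3 : ZMod 7) 2 2 0 := by
  have h6 : ((6 : ℕ) : ZMod 7) ≠ 0 := by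
    intro h6
    have h7 := (ZMod.natCast_eq_zero_iff 6 7).1 h6
    omega
  have h7 : ((7 : ℕ) : ZMod 7) = 0 := ZMod.natCast_self 7
  have h70 : (7 : ℕ) ≠ 0 := by norm_num
  have hne : (circ Sig).Nonempty := ⟨(Sig_nonempty.some, 1), Sig_nonempty.some_mem, norm_one⟩
  have ge : ∀ (χ : ZMod 7) (j : ℕ), hh gSi χ Sig ∅ j ≤ hh g₀ χ univ ∅ j := fun χ j =>
    (hh_circ_ge gSi χ Sig h6 ze_six j).trans (hh_le_subtype hne mapsTo_rot χ j)
  have ad : ∀ (χ : ZMod 7) (j : ℕ), hh gSi χ Sig ∅ j ≤ hh g₀ χ univ ∅ (j + 1) := fun χ j =>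
    ((self_le_add_left _ _).trans (hh_circ_add gSi χ Sig h6 ze_six h7 h70 j)).trans
      (hh_le_subtype hne mapsTo_rot χ _)
  have a0 : 1 ≤ hh gSi (1 : ZMod 7) Sig ∅ 0 := AS.one_le_hh_zero gSi Sig Sig_nonempty
  have a2 : 1 ≤ hh gSi (1 : ZMod 7) Sig ∅ 2 := one_le_hh_Sig_two h7 h70
  refine ⟨fun i => ?_, fun i => ?_, fun i => ?_, fun i => ?_⟩
  · match i with
    | 0 => exact_mod_cast a0.trans (ge 1 0)
    | 1 => exact_mod_cast a2.trans (ge 1 2)
    | i + 2 => rw [Nat.choose_eq_zero_of_lt (by omega)]; simp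
  · match i with
    | 0 => exact_mod_cast a0.trans (ad 1 0)
    | 1 => exact_mod_cast a2.trans (ad 1 2)
    | i + 2 => rw [Nat.choose_eq_zero_of_lt (by omega)]; simp
  · match i with
    | 0 => exact_mod_cast two_le_hh_Sig7.trans (ge 3 1)
    | i + 1 => rw [Nat.choose_eq_zero_of_lt (by omega)]; simp
  · match i with
    | 0 => exact_mod_cast two_le_hh_Sig7.trans (ad 3 1)
    | i + 1 => rw [Nat.choose_eq_zero_of_lt (by omega)]; simp

end Base

attribute [local instance] Vale.Agent.P265.Top.fact7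

/-- The `k`-th example, of dimension `2 (k + 3)`, with the splitting of its cover. -/
def Qk (k : ℕ) : Prop :=
  ∃ (E F : Type) (_ : NormedAddCommGroup E) (_ : NormedSpace ℝ E) (_ : FiniteDimensional ℝ E)
    (_ : NormedAddCommGroup F) (_ : NormedSpace ℝ F) (_ : FiniteDimensional ℝ F)
    (D : RegLevel E F (EuclideanSpace ℝ (Fin (2 * (k + 3))))),
    Nonempty (Amb D.G (16 * 2 ^ k)) ∧ (∃ R, ∀ x, D.G x = 0 → ‖x‖ ≤ R) ∧
    ConnectedSpace D.Carrier ∧ ∃ (N : Type) (_ : MetricSpace N) (_ : CompactSpace N)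
      (C : CycCover D.Carrier N 6) (N' : Type) (_ : MetricSpace N') (_ : CompactSpace N')
      (g' : N' → N'), Split C.g g' ∧ LoG g' (1 : ZMod 7) 0 1 (k + 2) ∧
        LoG g' (1 : ZMod 7) 1 1 (k + 2) ∧ LoG g' (3 : ZMod 7) 1 2 (k + 1) ∧
        LoG g' (3 : ZMod 7) 2 2 (k + 1)

theorem qk (k : ℕ) : Qk k := by
  have h7 : ((7 : ℕ) : ZMod 7) = 0 := ZMod.natCast_self 7
  have h70 : (7 : ℕ) ≠ 0 := by norm_num
  induction k with
  | zero =>
    obtain ⟨A⟩ := ambBase
    obtain ⟨h1, h2, h3, h4⟩ := lo_base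
    refine ⟨Dis.E, Dis.F, inferInstance, inferInstance, inferInstance, inferInstance, inferInstance,
      inferInstance, Dis.RL, ⟨?_⟩, ⟨2, Dis.bound⟩, inferInstanceAs (ConnectedSpace Dis.M), NN,
      inferInstance, inferInstance, cover, circ Sig × S, inferInstance, inferInstance, _,
      split_base, h1.step h7 h70, h2.step h7 h70, h3.step h7 h70, h4.step h7 h70⟩
    have e : (16 : ℕ∞) * 2 ^ 0 = 16 := by norm_num
    rw [e]
    exact A
  | succ k ih =>
    obtain ⟨E, F, _, _, _, _, _, _, D, ⟨A⟩, ⟨R, hR⟩, _, N, _, _, C, N', _, _, g', h0, h1, h2, h3,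
      h4⟩ := ih
    have hd : finrank ℝ (EuclideanSpace ℝ (Fin (2 * (k + 1 + 3)))) =
        finrank ℝ (EuclideanSpace ℝ (Fin (2 * (k + 3)))) + 2 := by
      simp only [finrank_euclideanSpace_fin]
      ring
    refine ⟨E × (ℝ × ℂ), F × ℝ, inferInstance, inferInstance, inferInstance, inferInstance,
      inferInstance, inferInstance, prS D _ hd, ⟨?_⟩, ⟨max R 1, bound_prS D hd hR⟩,
      connected D hd, N × S, inferInstance, inferInstance, covS D hd C, N' × S, inferInstance,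
      inferInstance, _, h0.step, h1.step h7 h70, h2.step h7 h70, h3.step h7 h70, h4.step h7 h70⟩
    have e : (16 : ℕ∞) * 2 ^ (k + 1) = 16 * 2 ^ k * 2 := by ring
    rw [e]
    exact A.prod ambS D.smooth contDiff_q

theorem sum_pairs (k r : ℕ) (hr : r ≤ k + 2) (w : ℕ → ℕ)
    (h1 : ∀ i, (k + 2).choose i + 2 * (k + 1).choose i ≤ w i)
    (h2 : ∀ i, (k + 2).choose (i + 1) + 2 * (k + 1).choose i ≤ w (i + 1)) :
    2 ^ (k + 3) + 2 * (k + 1).choose r ≤ ∑ i ∈ Finset.range (k + 3), w i := by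
  have key : ∀ m, T (k + 2) (r + 1 + m) + 2 * T (k + 1) (r + 1) + 2 * T (k + 1) (r + m) ≤
      ∑ i ∈ Finset.range (r + 1 + m), w i + 2 * T (k + 1) r := by
    intro m
    induction m with
    | zero =>
      have h3 := Finset.sum_le_sum (s := Finset.range (r + 1)) fun i _ => h1 i
      rw [Finset.sum_add_distrib, ← Finset.mul_sum] at h3
      exact Nat.add_le_add_right h3 _
    | succ m ih =>
      have h3 := h2 (r + m)
      rw [← add_assoc, ← add_assoc, Finset.sum_range_succ, T_succ (k + 2), T_succ (k + 1) (r + m),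
        show r + 1 + m = r + m + 1 by ring] at *
      omega
  have h3 := key (k + 2 - r)
  rw [show r + 1 + (k + 2 - r) = k + 2 + 1 by omega, show r + (k + 2 - r) = k + 1 + 1 by omega,
    T_total, T_total, T_succ] at h3
  have e1 : 2 ^ (k + 3) = 8 * 2 ^ k := by ring
  have e2 : 2 ^ (k + 2) = 4 * 2 ^ k := by ring
  have e3 : 2 ^ (k + 1) = 2 * 2 ^ k := by ring
  rw [e2, e3] at h3
  rw [e1]
  change _ ≤ ∑ i ∈ Finset.range (k + 2 + 1), w i
  omega

theorem sum_rel {m s : ℕ → ℕ} (h0 : m 0 = s 0) (h1 : ∀ j, m (j + 1) = s (j + 1) + s j) (D : ℕ) :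
    ∑ j ∈ Finset.range (D + 1), m j = s D + 2 * ∑ j ∈ Finset.range D, s j := by
  induction D with
  | zero => simpa using h0
  | succ D ih => rw [Finset.sum_range_succ, ih, h1, Finset.sum_range_succ]; ring

/-- The lower bound for the stable Morse number. -/
theorem le_SM' {V : Type} [NormedAddCommGroup V] [NormedSpace ℝ V]
    [FiniteDimensional ℝ V] {M N : Type} [MetricSpace M] [CompactSpace M]
    [ChartedSpace V M] [IsManifold 𝓘(ℝ, V) ∞ M] [MetricSpace N] [CompactSpace N] {n : ℕ}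
    (C : CycCover M N n) {N' : Type} [MetricSpace N'] [CompactSpace N'] {g' : N' → N'}
    (hS : Split C.g g') {F : Type} [Field F] (χ : F) (hχ : χ ^ n = 1) (k r : ℕ) (hr : r ≤ k + 2)
    (a0 : LoG g' (1 : F) 0 1 (k + 2)) (a1 : LoG g' (1 : F) 1 1 (k + 2))
    (b1 : LoG g' χ 1 2 (k + 1)) (b2 : LoG g' χ 2 2 (k + 1)) :
    ((2 ^ (k + 4) + 4 * (k + 1).choose r : ℕ) : ℕ∞) ≤ StableMorseNumber V M := by
  refine le_stableMorseNumber _ fun l G hG hQ => ?_
  rcases (Crit (𝓘(ℝ, V).prod 𝓘(ℝ, EuclideanSpace ℝ (Fin l))) G).finite_or_infinite with hfin | hinf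
  swap
  · rw [hinf.encard_eq]; exact le_top
  obtain ⟨idx, ν, hidx⟩ := morse_split hG (fun _ => hQ) hfin
  obtain ⟨s, s0, s1, s2⟩ := hidx C (1 : F) (one_pow n) hS
  obtain ⟨t, t0, t1, t2⟩ := hidx C χ hχ hS
  have hst : ∀ j, t j = s j := by
    intro j
    induction j with
    | zero => exact t0.symm.trans s0
    | succ j ih =>
      have := (t1 j).symm.trans (s1 j)
      omega
  have c0 : ∀ i, (k + 2).choose i ≤ s (ν + 2 * i) := fun i => by
    have := (a0 i).trans (s2 _)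
    rw [one_mul, add_zero, add_comm (2 * i)] at this
    exact_mod_cast this
  have c1 : ∀ i, (k + 2).choose i ≤ s (ν + (2 * i + 1)) := fun i => by
    have := (a1 i).trans (s2 _)
    rw [one_mul, add_comm (2 * i + 1)] at this
    exact_mod_cast this
  have d1 : ∀ i, 2 * (k + 1).choose i ≤ s (ν + (2 * i + 1)) := fun i => by
    have := (b1 i).trans (t2 _)
    rw [hst, add_comm (2 * i + 1)] at this
    exact_mod_cast this
  have d2 : ∀ i, 2 * (k + 1).choose i ≤ s (ν + 2 * (i + 1)) := fun i => by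
    have := (b2 i).trans (t2 _)
    rw [hst, add_comm (2 * i + 2)] at this
    exact_mod_cast this
  have h1 := sum_pairs k r hr (fun i => s (ν + 2 * i) + s (ν + (2 * i + 1)))
    (fun i => add_le_add (c0 i) (d1 i)) fun i => by
      rw [add_comm (s _)]
      exact add_le_add (c1 (i + 1)) (d2 i)
  rw [← sum_two_mul fun j => s (ν + j)] at h1
  have h2 := sum_rel (m := fun j => {x ∈ Crit (𝓘(ℝ, V).prod 𝓘(ℝ, EuclideanSpace ℝ (Fin l))) G |
    idx x = j}.ncard) s0 s1 (ν + 2 * (k + 3))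
  rw [Finset.sum_range_add s] at h2
  have h3 := sum_le_encard (Crit (𝓘(ℝ, V).prod 𝓘(ℝ, EuclideanSpace ℝ (Fin l))) G) idx 0
    (fun j => (({x ∈ Crit (𝓘(ℝ, V).prod 𝓘(ℝ, EuclideanSpace ℝ (Fin l))) G |
      idx x = j}.ncard : ℕ) : ℕ∞)) (ν + 2 * (k + 3) + 1)
    fun j _ => (Finite.cast_ncard_eq (hfin.subset fun x hx => hx.1)).le
  refine le_trans ?_ h3
  rw [← Nat.cast_sum, h2, Nat.cast_le, pow_succ]
  omega

open Vale.Agent.P265W27 in
/-- Counterexamples in every even dimension `2 n ≥ 6` with excess `4 C(n - 2, ⌊(n - 2) / 2⌋)`. -/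
theorem counterexample (n : ℕ) (hn : 3 ≤ n) :
    ∃ (M : Type) (_ : TopologicalSpace M) (_ : T2Space M) (_ : CompactSpace M)
      (_ : ConnectedSpace M) (_ : ChartedSpace (EuclideanSpace ℝ (Fin (2 * n))) M)
      (_ : IsManifold 𝓘(ℝ, EuclideanSpace ℝ (Fin (2 * n))) ∞ M)
      (om : FormField (EuclideanSpace ℝ (Fin (2 * n))) M) (H : ℝ → M → ℝ) (φ : ℝ → M → M)
      (N s : ℕ), IsSymplectic om ∧ IsHamiltonianFlow om H φ ∧
        NondegFixedPoints (EuclideanSpace ℝ (Fin (2 * n))) (φ 1) ∧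
        {x | φ 1 x = x}.encard = N ∧
        IsLeast (stableCounts (EuclideanSpace ℝ (Fin (2 * n))) M) s ∧
        N ≤ 2 ^ (n + 1) ∧ 2 ^ (n + 1) + 4 * (n - 2).choose ((n - 2) / 2) ≤ s := by
  obtain ⟨k, rfl⟩ : ∃ k, n = k + 3 := ⟨n - 3, by omega⟩
  obtain ⟨E, F, _, _, _, _, _, _, D, ⟨A⟩, ⟨R, hR⟩, _, N, _, _, C, N', _, _, g', h0, h1, h2, h3,
    h4⟩ := qk k
  have : CompactSpace D.Carrier := D.compactSpace hR
  obtain ⟨om, H, φ, e1, e2, e3, e4⟩ := A.result D
  obtain ⟨s, -, hs, -, -⟩ :=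
    exists_isLeast (V := EuclideanSpace ℝ (Fin (2 * (k + 3)))) (W := D.Carrier)
  have e5 : {x | φ 1 x = x}.encard ≤ (2 ^ (k + 3 + 1) : ℕ) := e4.trans (le_of_eq (by
    push_cast
    ring))
  have hfin : {x | φ 1 x = x}.Finite := finite_of_encard_le_coe e5
  refine ⟨D.Carrier, inferInstance, inferInstance, inferInstance, inferInstance, inferInstance,
    inferInstance, om, H, φ, {x | φ 1 x = x}.ncard, s, e1, e2, e3, hfin.cast_ncard_eq.symm,
    hs, ?_, ?_⟩
  · rw [← hfin.cast_ncard_eq] at e5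
    exact_mod_cast e5
  · have h := (le_SM' (V := EuclideanSpace ℝ (Fin (2 * (k + 3)))) C h0 (3 : ZMod 7) (by decide) k
      ((k + 1) / 2) (by omega) h1 h2 h3 h4).trans (stableMorseNumber_le hs.1)
    exact Nat.cast_le.1 h

end Vale.Agent.N265
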